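import Vale.Agent.P060.Decomp

/-!
Partitions of a vertex set into cliques of `H`, components of an induced subgraph, and the
Tutte–Berge formula in this language.
-/

set_option linter.unusedSectionVars false

namespace Vale.Agent.P060

open Finset

variable {V : Type} [Fintype V] [DecidableEq V] (H : SimpleGraph V)

/-- `X` splits into at most `k` cliques of `H`. -/
def CPart (X : Finset V) (k : ℕ) : Prop :=
  ∃ f : V → ℕ, (∀ x ∈ X, f x < k) ∧ ∀ x ∈ X, ∀ y ∈ X, x ≠ y → f x = f y → H.Adj x y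

/-- `X` splits into at most `k` cliques of `H` of size at most two. -/
def EPart (X : Finset V) (k : ℕ) : Prop :=
  ∃ f : V → ℕ, (∀ x ∈ X, f x < k) ∧ (∀ x ∈ X, ∀ y ∈ X, x ≠ y → f x = f y → H.Adj x y) ∧
    ∀ i, (X.filter fun x => f x = i).card ≤ 2

variable {H}

lemma EPart.cpart {X : Finset V} {k : ℕ} (h : EPart H X k) : CPart H X k := by
  obtain ⟨f, h1, h2, -⟩ := h
  exact ⟨f, h1, h2⟩

lemma EPart.card_le {X : Finset V} {k : ℕ} (h : EPart H X k) : X.card ≤ 2 * k := by
  obtain ⟨f, h1, -, h3⟩ := h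
  have := card_le_mul_card_image (f := f) X 2 fun b _ => h3 b
  refine this.trans (Nat.mul_le_mul_left 2 ?_)
  rw [← card_range k]
  exact card_le_card fun i hi => by
    obtain ⟨x, hx, rfl⟩ := mem_image.1 hi
    exact mem_range.2 (h1 x hx)

lemma CPart.mono {X X' : Finset V} {k k' : ℕ} (h : CPart H X k) (hX : X' ⊆ X) (hk : k ≤ k') :
    CPart H X' k' := by
  obtain ⟨f, h1, h2⟩ := h
  exact ⟨f, fun x hx => (h1 x (hX hx)).trans_le hk, fun x hx y hy => h2 x (hX hx) y (hX hy)⟩

lemma CPart.union {X Y : Finset V} {a b : ℕ} (hX : CPart H X a) (hY : CPart H Y b) :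
    CPart H (X ∪ Y) (a + b) := by
  obtain ⟨f, f1, f2⟩ := hX
  obtain ⟨g, g1, g2⟩ := hY
  refine ⟨fun x => if x ∈ X then f x else a + g x, fun x hx => ?_, fun x hx y hy hne he => ?_⟩
  · by_cases h : x ∈ X
    · simp only [if_pos h]; have := f1 x h; omega
    · simp only [if_neg h]
      have := g1 x ((mem_union.1 hx).resolve_left h); omega
  · by_cases h : x ∈ X <;> by_cases h' : y ∈ X <;> simp only [h, h', if_true, if_false] at he
    · exact f2 x h y h' hne he
    · have := f1 x h; omega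
    · have := f1 y h'; omega
    · exact g2 x ((mem_union.1 hx).resolve_left h) y ((mem_union.1 hy).resolve_left h') hne
        (by omega)

lemma EPart.union {X Y : Finset V} {a b : ℕ} (hX : EPart H X a) (hY : EPart H Y b) :
    EPart H (X ∪ Y) (a + b) := by
  obtain ⟨f, f1, f2, f3⟩ := hX
  obtain ⟨g, g1, g2, g3⟩ := hY
  refine ⟨fun x => if x ∈ X then f x else a + g x, fun x hx => ?_, fun x hx y hy hne he => ?_,
    fun i => ?_⟩
  · by_cases h : x ∈ X
    · simp only [if_pos h]; have := f1 x h; omega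
    · simp only [if_neg h]
      have := g1 x ((mem_union.1 hx).resolve_left h); omega
  · by_cases h : x ∈ X <;> by_cases h' : y ∈ X <;> simp only [h, h', if_true, if_false] at he
    · exact f2 x h y h' hne he
    · have := f1 x h; omega
    · have := f1 y h'; omega
    · exact g2 x ((mem_union.1 hx).resolve_left h) y ((mem_union.1 hy).resolve_left h') hne
        (by omega)
  · rcases lt_or_ge i a with hi | hi
    · refine (card_le_card fun x hx => ?_).trans (f3 i)
      simp only [mem_filter] at hx ⊢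
      by_cases h : x ∈ X
      · exact ⟨h, by simpa [h] using hx.2⟩
      · simp only [h, if_false] at hx; omega
    · refine (card_le_card fun x hx => ?_).trans (g3 (i - a))
      simp only [mem_filter] at hx ⊢
      by_cases h : x ∈ X
      · simp only [h, if_true] at hx; have := f1 x h; omega
      · simp only [h, if_false] at hx
        exact ⟨(mem_union.1 hx.1).resolve_left h, by omega⟩

lemma epart_empty : EPart H ∅ 0 :=
  ⟨fun _ => 0, fun x hx => absurd hx (notMem_empty x), fun x hx => absurd hx (notMem_empty x),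
    fun i => by simp⟩

lemma epart_small {X : Finset V} (h2 : X.card ≤ 2)
    (hcl : ∀ x ∈ X, ∀ y ∈ X, x ≠ y → H.Adj x y) : EPart H X 1 :=
  ⟨fun _ => 0, fun _ _ => Nat.one_pos, fun x hx y hy hne _ => hcl x hx y hy hne,
    fun _ => (card_le_card (filter_subset _ _)).trans h2⟩

lemma EPart.biUnion {ι : Type} [DecidableEq ι] (I : Finset ι) (P : ι → Finset V) (j : ι → ℕ)
    (h : ∀ i ∈ I, EPart H (P i) (j i)) : EPart H (I.biUnion P) (∑ i ∈ I, j i) := by
  induction I using Finset.induction with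
  | empty => simpa using epart_empty
  | insert a I ha ih =>
    rw [biUnion_insert, sum_insert ha]
    exact (h a (mem_insert_self _ _)).union (ih fun i hi => h i (mem_insert_of_mem hi))

/-- A partition can be relabelled by the classes it uses. -/
lemma cpart_image {X : Finset V} {f : V → ℕ}
    (hf : ∀ x ∈ X, ∀ y ∈ X, x ≠ y → f x = f y → H.Adj x y) : CPart H X (X.image f).card := by
  classical
  set e := (X.image f).equivFin
  refine ⟨fun x => if h : f x ∈ X.image f then (e ⟨f x, h⟩ : ℕ) else 0, fun x hx => ?_,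
    fun x hx y hy hne he => ?_⟩
  · simp only [dif_pos (mem_image_of_mem f hx)]; exact Fin.is_lt _
  · simp only [dif_pos (mem_image_of_mem f hx), dif_pos (mem_image_of_mem f hy)] at he
    exact hf x hx y hy hne (congrArg Subtype.val (e.injective (Fin.ext he)))

lemma epart_image {X : Finset V} {f : V → ℕ}
    (hf : ∀ x ∈ X, ∀ y ∈ X, x ≠ y → f x = f y → H.Adj x y)
    (h2 : ∀ i, (X.filter fun x => f x = i).card ≤ 2) : EPart H X (X.image f).card := by
  classical
  set e := (X.image f).equivFin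
  refine ⟨fun x => if h : f x ∈ X.image f then (e ⟨f x, h⟩ : ℕ) else 0, fun x hx => ?_,
    fun x hx y hy hne he => ?_, fun i => ?_⟩
  · simp only [dif_pos (mem_image_of_mem f hx)]; exact Fin.is_lt _
  · simp only [dif_pos (mem_image_of_mem f hx), dif_pos (mem_image_of_mem f hy)] at he
    exact hf x hx y hy hne (congrArg Subtype.val (e.injective (Fin.ext he)))
  · rcases eq_or_ne (X.filter fun x =>
      (if h : f x ∈ X.image f then (e ⟨f x, h⟩ : ℕ) else 0) = i).card 0 with h0 | h0
    · exact (le_of_eq h0).trans (by norm_num)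
    obtain ⟨x0, hx0⟩ := card_pos.1 (Nat.pos_of_ne_zero h0)
    rw [mem_filter] at hx0
    refine (card_le_card fun x hx => ?_).trans (h2 (f x0))
    rw [mem_filter] at hx ⊢
    refine ⟨hx.1, ?_⟩
    have he := hx.2.trans hx0.2.symm
    simp only [dif_pos (mem_image_of_mem f hx.1), dif_pos (mem_image_of_mem f hx0.1)] at he
    exact congrArg Subtype.val (e.injective (Fin.ext he))

/-- `H` restricted to edges inside `Z` -/
def within (H : SimpleGraph V) (Z : Finset V) : SimpleGraph V where
  Adj x y := H.Adj x y ∧ x ∈ Z ∧ y ∈ Z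
  symm := ⟨fun _ _ h => ⟨h.1.symm, h.2.2, h.2.1⟩⟩
  loopless := ⟨fun _ h => H.irrefl h.1⟩

open Classical in
/-- the component of `x` in `H[Z]` -/
noncomputable def compOf (H : SimpleGraph V) (Z : Finset V) (x : V) : Finset V :=
  Z.filter fun y => (within H Z).Reachable x y

/-- the components of `H[Z]` -/
noncomputable def comps (H : SimpleGraph V) (Z : Finset V) : Finset (Finset V) :=
  Z.image (compOf H Z)

/-- the odd components of `H[Z]` -/
noncomputable def oddC (H : SimpleGraph V) (Z : Finset V) : Finset (Finset V) :=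
  (comps H Z).filter fun C => Odd C.card

lemma mem_compOf {Z : Finset V} {x y : V} :
    y ∈ compOf H Z x ↔ y ∈ Z ∧ (within H Z).Reachable x y := by
  classical
  simp [compOf]

lemma comp_sub {Z C : Finset V} (hC : C ∈ comps H Z) : C ⊆ Z := by
  obtain ⟨x, -, rfl⟩ := mem_image.1 hC
  exact fun y hy => (mem_compOf.1 hy).1

lemma comp_nonempty {Z C : Finset V} (hC : C ∈ comps H Z) : C.Nonempty := by
  obtain ⟨x, hx, rfl⟩ := mem_image.1 hC
  exact ⟨x, mem_compOf.2 ⟨hx, SimpleGraph.Reachable.refl _⟩⟩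

lemma comp_eq {Z C : Finset V} (hC : C ∈ comps H Z) {x : V} (hx : x ∈ C) :
    C = compOf H Z x := by
  obtain ⟨x0, -, rfl⟩ := mem_image.1 hC
  obtain ⟨-, hr⟩ := mem_compOf.1 hx
  ext y
  simp only [mem_compOf]
  exact ⟨fun h => ⟨h.1, hr.symm.trans h.2⟩, fun h => ⟨h.1, hr.trans h.2⟩⟩

lemma comp_unique {Z C C' : Finset V} (hC : C ∈ comps H Z) (hC' : C' ∈ comps H Z) {x : V}
    (hx : x ∈ C) (hx' : x ∈ C') : C = C' :=
  (comp_eq hC hx).trans (comp_eq hC' hx').symm

lemma comp_closed {Z C : Finset V} (hC : C ∈ comps H Z) {x y : V} (hx : x ∈ C) (hy : y ∈ Z)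
    (h : H.Adj x y) : y ∈ C := by
  rw [comp_eq hC hx, mem_compOf]
  exact ⟨hy, SimpleGraph.Adj.reachable ⟨h, comp_sub hC hx, hy⟩⟩

lemma exists_comp (H : SimpleGraph V) {Z : Finset V} {x : V} (hx : x ∈ Z) :
    ∃ C ∈ comps H Z, x ∈ C :=
  ⟨compOf H Z x, mem_image_of_mem _ hx, mem_compOf.2 ⟨hx, SimpleGraph.Reachable.refl _⟩⟩

lemma biUnion_comps (H : SimpleGraph V) (Z : Finset V) : (comps H Z).biUnion id = Z := by
  ext x
  simp only [mem_biUnion, id]
  exact ⟨fun ⟨C, hC, hx⟩ => comp_sub hC hx, fun hx => exists_comp H hx⟩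

lemma sum_comps (H : SimpleGraph V) (Z : Finset V) : ∑ C ∈ comps H Z, C.card = Z.card := by
  conv_rhs => rw [← biUnion_comps H Z]
  rw [card_biUnion]
  · rfl
  · intro C hC C' hC' hne
    exact disjoint_left.2 fun x hx hx' => hne (comp_unique hC hC' hx hx')

lemma oddC_parity (H : SimpleGraph V) (Z : Finset V) : Odd (oddC H Z).card ↔ Odd Z.card := by
  rw [← sum_comps H Z, oddC]
  exact (odd_sum_iff_odd_card_odd _).symm

/-- Components of a closed part stay components. -/
lemma comps_of_closed {Z Z' C : Finset V} (hC : C ∈ comps H Z') (hsub : Z' ⊆ Z)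
    (hcl : ∀ x ∈ C, ∀ y ∈ Z, H.Adj x y → y ∈ C) : C ∈ comps H Z := by
  obtain ⟨x, hx⟩ := comp_nonempty hC
  have hxZ := hsub (comp_sub hC hx)
  suffices C = compOf H Z x by rw [this]; exact mem_image_of_mem _ hxZ
  ext y
  rw [mem_compOf]
  constructor
  · intro hy
    rw [comp_eq hC hx, mem_compOf] at hy
    exact ⟨hsub hy.1, hy.2.mono (show within H Z' ≤ within H Z from fun a b h => ⟨h.1, hsub h.2.1, hsub h.2.2⟩)⟩
  · rintro ⟨-, ⟨w⟩⟩
    induction w with
    | nil => exact hx
    | cons h _ ih =>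
      exact ih (hcl _ hx _ h.2.2 h.1) (h.2.2)

/-- The necessity half of Tutte–Berge. -/
lemma epart_bound {Y S : Finset V} {j : ℕ} (h : EPart H Y j) (hS : S ⊆ Y) :
    Y.card + (oddC H (Y \ S)).card ≤ 2 * j + S.card := by
  classical
  obtain ⟨f, f1, f2, f3⟩ := h
  set Q : ℕ → Finset V := fun i => Y.filter fun x => f x = i with hQ
  have hex : ∀ C ∈ oddC H (Y \ S), ∃ i ∈ range j, (C ∩ Q i).card = 1 := by
    intro C hC
    obtain ⟨hC1, hC2⟩ := mem_filter.1 hC
    have hCY : C ⊆ Y := (comp_sub hC1).trans sdiff_subset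
    by_contra hno
    push Not at hno
    have hsum : C.card = ∑ i ∈ range j, (C ∩ Q i).card := by
      rw [← card_biUnion]
      · congr 1
        ext x
        simp only [mem_biUnion, mem_range, mem_inter, hQ, mem_filter]
        exact ⟨fun hx => ⟨f x, f1 x (hCY hx), hx, hCY hx, rfl⟩, fun ⟨_, _, hx, _⟩ => hx⟩
      · intro a _ b _ hab
        refine disjoint_left.2 fun x hx hx' => hab ?_
        simp only [hQ, mem_inter, mem_filter] at hx hx'
        exact hx.2.2.symm.trans hx'.2.2
    have heven : Even C.card := by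
      rw [hsum]
      refine even_sum _ fun i hi => ?_
      have h1 := hno i hi
      have h2 : (C ∩ Q i).card ≤ 2 := (card_le_card inter_subset_right).trans (f3 i)
      interval_cases hc : (C ∩ Q i).card
      · exact Even.zero
      · exact absurd rfl h1
      · exact even_two
    exact Nat.not_odd_iff_even.2 heven hC2
  choose! ι hι1 hι2 using hex
  have hinj : Set.InjOn ι (oddC H (Y \ S) : Set (Finset V)) := by
    intro C hC C' hC' he
    have hC1 := (mem_filter.1 hC).1
    have hC1' := (mem_filter.1 hC').1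
    obtain ⟨x, hx⟩ := card_pos.1 (by rw [hι2 C hC]; exact one_pos)
    obtain ⟨y, hy⟩ := card_pos.1 (by rw [hι2 C' hC']; exact one_pos)
    simp only [hQ, mem_inter, mem_filter] at hx hy
    by_cases hxy : x = y
    · subst hxy; exact comp_unique hC1 hC1' hx.1 hy.1
    · have hadj := f2 x hx.2.1 y hy.2.1 hxy (by rw [hx.2.2, hy.2.2, he])
      exact comp_unique hC1 hC1' (comp_closed hC1 hx.1 (comp_sub hC1' hy.1) hadj) hy.1
  have hg : ∀ i, (Q i \ S).card + (if i ∈ (oddC H (Y \ S)).image ι then 1 else 0) ≤ 2 := by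
    intro i
    split_ifs with hi
    · obtain ⟨C, hC, rfl⟩ := mem_image.1 hi
      have hC1 := (mem_filter.1 hC).1
      obtain ⟨x, hx⟩ := card_eq_one.1 (hι2 C hC)
      have hxm : x ∈ C ∧ x ∈ Q (ι C) := mem_inter.1 (hx ▸ mem_singleton_self x)
      suffices Q (ι C) \ S ⊆ {x} by
        have := card_le_card this
        rw [card_singleton] at this
        omega
      intro y hy
      rw [mem_singleton]
      by_contra hne
      obtain ⟨hy1, hy2⟩ := mem_sdiff.1 hy
      simp only [hQ, mem_filter] at hy1 hxm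
      have hadj := f2 x hxm.2.1 y hy1.1 (Ne.symm hne) (hxm.2.2.trans hy1.2.symm)
      have hyC := comp_closed hC1 hxm.1 (mem_sdiff.2 ⟨hy1.1, hy2⟩) hadj
      have : y ∈ C ∩ Q (ι C) := mem_inter.2 ⟨hyC, by simp [hQ, hy1]⟩
      rw [hx, mem_singleton] at this
      exact hne this
    · exact (card_le_card sdiff_subset).trans (f3 i)
  have hsum := sum_le_sum (s := range j) fun i _ => hg i
  rw [sum_add_distrib, sum_const, card_range, smul_eq_mul] at hsum
  have h1 : ∑ i ∈ range j, (Q i \ S).card = (Y \ S).card := by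
    rw [← card_biUnion]
    · congr 1
      ext x
      simp only [mem_biUnion, mem_range, mem_sdiff, hQ, mem_filter]
      exact ⟨fun ⟨_, _, ⟨hx, _⟩, hx'⟩ => ⟨hx, hx'⟩, fun ⟨hx, hx'⟩ => ⟨f x, f1 x hx, ⟨hx, rfl⟩, hx'⟩⟩
    · intro a _ b _ hab
      refine disjoint_left.2 fun x hx hx' => hab ?_
      simp only [hQ, mem_sdiff, mem_filter] at hx hx'
      exact hx.1.2.symm.trans hx'.1.2
  have h2 : ∑ i ∈ range j, (if i ∈ (oddC H (Y \ S)).image ι then 1 else 0) =
      (oddC H (Y \ S)).card := by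
    rw [sum_boole, Nat.cast_id, ← card_image_of_injOn hinj]
    congr 1
    ext i
    simp only [mem_filter, and_iff_right_iff_imp]
    intro hi
    obtain ⟨C, hC, rfl⟩ := mem_image.1 hi
    exact hι1 C hC
  have h3 := card_sdiff_of_subset hS
  have := card_le_card hS
  omega

/-- The sufficiency half of Tutte–Berge. -/
lemma exists_epart (H : SimpleGraph V) (Y : Finset V) (d : ℕ) (hpar : Even (Y.card + d))
    (hd : ∀ S ⊆ Y, (oddC H (Y \ S)).card ≤ S.card + d) :
    ∃ j, 2 * j = Y.card + d ∧ EPart H Y j := by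
  classical
  set HY : SimpleGraph Y := H.comap Subtype.val with hHY
  have hvio : ∀ S : Finset Y, oddNum HY S ≤ S.card + d := by
    intro S
    set S' := S.map ⟨Subtype.val, Subtype.val_injective⟩ with hS'
    have hsub : S' ⊆ Y := by
      intro x hx
      obtain ⟨y, -, rfl⟩ := mem_map.1 hx
      exact y.2
    refine le_trans ?_ ((hd S' hsub).trans (le_of_eq (by rw [hS', card_map])))
    have hin : ∀ x : {x : Y // x ∉ S}, (x.1 : V) ∈ Y \ S' := by
      intro x
      refine mem_sdiff.2 ⟨x.1.2, fun h => ?_⟩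
      obtain ⟨y, hy, he⟩ := mem_map.1 h
      exact x.2 (by rwa [← Subtype.ext (show (y : V) = (x.1 : V) from he)])
    let φ : restG HY S →g within H (Y \ S') :=
      ⟨fun x => (x.1 : V), fun {a b} h => ⟨h, hin a, hin b⟩⟩
    have hback : ∀ (a b : V), (within H (Y \ S')).Walk a b → ∀ x y : {x : Y // x ∉ S},
        (x.1 : V) = a → (y.1 : V) = b → (restG HY S).Reachable x y := by
      intro a b w
      induction w with
      | nil =>
        intro x y hx hy
        rw [show x = y from Subtype.ext (Subtype.ext (hx.trans hy.symm))]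
      | @cons a c b h _ ih =>
        intro x y hx hy
        obtain ⟨hc1, hc2⟩ := mem_sdiff.1 h.2.2
        let z : {x : Y // x ∉ S} := ⟨⟨c, hc1⟩, fun hz => hc2 (mem_map.2 ⟨_, hz, rfl⟩)⟩
        refine (SimpleGraph.Adj.reachable (show (restG HY S).Adj x z from ?_)).trans (ih z y rfl hy)
        show H.Adj (x.1 : V) c
        rw [hx]; exact h.1
    rw [oddNum, Set.ncard_eq_toFinset_card']
    refine card_le_card_of_injOn
      (fun C => C.supp.toFinset.map ⟨fun x : {x : Y // x ∉ S} => (x.1 : V),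
        fun _ _ h => Subtype.ext (Subtype.ext h)⟩) ?_ ?_
    · intro C hC
      simp only [Set.coe_toFinset, Set.mem_ofPred_eq] at hC
      simp only [mem_coe, oddC, mem_filter, card_map, ← Set.ncard_eq_toFinset_card']
      refine ⟨?_, hC⟩
      obtain ⟨x, rfl⟩ := C.exists_rep
      refine mem_image.2 ⟨(x.1 : V), hin x, ?_⟩
      ext v
      simp only [mem_compOf, mem_map, Set.mem_toFinset, SimpleGraph.ConnectedComponent.mem_supp_iff]
      constructor
      · rintro ⟨hv, ⟨w⟩⟩
        obtain ⟨hv1, hv2⟩ := mem_sdiff.1 hv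
        let z : {x : Y // x ∉ S} := ⟨⟨v, hv1⟩, fun hz => hv2 (mem_map.2 ⟨_, hz, rfl⟩)⟩
        exact ⟨z, SimpleGraph.ConnectedComponent.sound (hback _ _ w x z rfl rfl).symm, rfl⟩
      · rintro ⟨z, hz, rfl⟩
        exact ⟨hin z, ((SimpleGraph.ConnectedComponent.exact hz).symm).map φ⟩
    · intro C _ C' _ h
      simp only [map_inj, Set.toFinset_inj] at h
      exact SimpleGraph.ConnectedComponent.supp_injective h
  obtain ⟨M, hM⟩ := SimpleGraph.tutte.2
    (fun T => no_violator HY (by simpa using hpar) hvio T)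
  have hex : ∀ x, ∃! y, M.Adj x y := fun x => hM.1 (hM.2 x)
  choose p hp hpu using hex
  have hinv : ∀ x, p (p x) = x := fun x => (hpu (p x) x (hp x).symm).symm
  obtain ⟨L, -, hL, hiff⟩ := exists_half p hinv univ
    (fun x _ => ⟨mem_univ _, fun h => (hp x).adj_sub.ne h.symm⟩)
  refine ⟨L.card, by simpa using hL, ?_⟩
  set r : V → ℕ := fun v => if h : v ∈ Y then
      (if h' : (Sum.inl ⟨v, h⟩ : Y ⊕ Fin d) ∈ L then (L.equivFin ⟨_, h'⟩ : ℕ)
        else (L.equivFin ⟨p (Sum.inl ⟨v, h⟩), by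
          by_contra hc
          exact h' ((hiff _ (mem_univ _)).2 hc)⟩ : ℕ))
    else 0 with hr
  have key : ∀ v (hv : v ∈ Y), ∃ z : L, r v = (L.equivFin z : ℕ) ∧
      (z.1 = Sum.inl ⟨v, hv⟩ ∨ z.1 = p (Sum.inl ⟨v, hv⟩)) := by
    intro v hv
    by_cases h' : (Sum.inl ⟨v, hv⟩ : Y ⊕ Fin d) ∈ L
    · exact ⟨⟨_, h'⟩, by simp only [hr, dif_pos hv, dif_pos h'], Or.inl rfl⟩
    · exact ⟨⟨p (Sum.inl ⟨v, hv⟩), by
        by_contra hc
        exact h' ((hiff _ (mem_univ _)).2 hc)⟩, by simp only [hr, dif_pos hv, dif_neg h'],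
        Or.inr rfl⟩
  refine ⟨r, fun v hv => ?_, fun v hv w hw hne he => ?_, fun i => ?_⟩
  · obtain ⟨z, hz, -⟩ := key v hv
    rw [hz]; exact Fin.is_lt _
  · obtain ⟨z, hz, hz'⟩ := key v hv
    obtain ⟨z', hw1, hw'⟩ := key w hw
    obtain rfl : z = z' := L.equivFin.injective (Fin.ext (by rw [← hz, ← hw1, he]))
    have hne' : (Sum.inl ⟨v, hv⟩ : Y ⊕ Fin d) ≠ Sum.inl ⟨w, hw⟩ := by simpa using hne
    have hpe : p (Sum.inl ⟨v, hv⟩) = Sum.inl ⟨w, hw⟩ := by
      rcases hz' with h1 | h1 <;> rcases hw' with h2 | h2 <;> rw [h1] at h2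
      · exact absurd h2 hne'
      · rw [h2, hinv]
      · exact h2
      · exact absurd (by rw [← hinv (Sum.inl ⟨v, hv⟩), h2, hinv]) hne'
    have := (hp (Sum.inl ⟨v, hv⟩)).adj_sub
    rw [hpe] at this
    exact this.2 _ _ rfl rfl
  · rcases (Y.filter fun x => r x = i).eq_empty_or_nonempty with h0 | ⟨v, hv⟩
    · simp [h0]
    rw [mem_filter] at hv
    obtain ⟨z, hz, hz'⟩ := key v hv.1
    refine (card_le_card_of_injOn (t := ({z.1, p z.1} : Finset (Y ⊕ Fin d)))
      (fun x => if h : x ∈ Y then Sum.inl ⟨x, h⟩ else z.1) ?_ ?_).trans card_le_two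
    · intro x hx
      obtain ⟨hxY, hxi⟩ := mem_filter.1 hx
      obtain ⟨z', hz1, hz2⟩ := key x hxY
      obtain rfl : z = z' := L.equivFin.injective (Fin.ext (by rw [← hz, ← hz1, hxi, hv.2]))
      simp only [dif_pos hxY, mem_coe, mem_insert, mem_singleton]
      rcases hz2 with h | h
      · exact Or.inl h.symm
      · exact Or.inr (by rw [h, hinv])
    · intro x hx y hy h
      simp only [dif_pos (mem_filter.1 hx).1, dif_pos (mem_filter.1 hy).1] at h
      exact congrArg Subtype.val (Sum.inl_injective h)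

end Vale.Agent.P060
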