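import Mathlib

/-!
A Tutte–Berge style decomposition of the complement `H` of the graph to be coloured.
-/

namespace Vale.Agent.P060

open Finset

variable {V : Type} [Fintype V] [DecidableEq V] (H : SimpleGraph V)

/-- `H` minus a set of vertices -/
def restG (S : Finset V) : SimpleGraph {x // x ∉ S} := H.comap Subtype.val

/-- number of odd components of `H - S` -/
noncomputable def oddNum (S : Finset V) : ℕ := (restG H S).oddComponents.ncard

lemma oddNum_parity (S : Finset V) :
    Odd (oddNum H S) ↔ Odd (Fintype.card V - S.card) := by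
  rw [oddNum, SimpleGraph.odd_ncard_oddComponents, Nat.card_eq_fintype_card,
    Fintype.card_subtype_compl (fun x => x ∈ S), Fintype.card_coe]

/-- `H` with `D` new universal vertices -/
def addUniv (D : ℕ) : SimpleGraph (V ⊕ Fin D) where
  Adj x y := x ≠ y ∧ ∀ a b, x = Sum.inl a → y = Sum.inl b → H.Adj a b
  symm := ⟨fun _ _ h => ⟨h.1.symm, fun a b ha hb => (h.2 b a hb ha).symm⟩⟩
  loopless := ⟨fun _ h => h.1 rfl⟩

lemma no_violator {D : ℕ} (hpar : Even (Fintype.card V + D))
    (hD : ∀ S, oddNum H S ≤ S.card + D) (T : Set (V ⊕ Fin D)) :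
    ¬ (addUniv H D).IsTutteViolator T := by
  classical
  intro hT
  set K := ((⊤ : (addUniv H D).Subgraph).deleteVerts T).coe with hK
  change T.ncard < K.oddComponents.ncard at hT
  by_cases hall : ∀ i : Fin D, Sum.inr i ∈ T
  · set S : Finset V := univ.filter fun x => Sum.inl x ∈ T with hS
    have hmem : ∀ x : V, x ∉ S ↔ Sum.inl x ∉ T := fun x => by simp [hS]
    let f : {x // x ∉ S} → ((⊤ : (addUniv H D).Subgraph).deleteVerts T).verts :=
      fun x => ⟨Sum.inl x.1, by simpa using (hmem x.1).1 x.2⟩
    have hf : Function.Bijective f := by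
      constructor
      · intro a b h
        exact Subtype.ext (Sum.inl_injective (congrArg Subtype.val h))
      · rintro ⟨y, hy⟩
        have hy' : y ∉ T := by simpa using hy
        rcases y with a | i
        · exact ⟨⟨a, (hmem a).2 hy'⟩, rfl⟩
        · exact absurd (hall i) hy'
    let φ : restG H S ≃g K :=
      ⟨Equiv.ofBijective f hf, fun {a b} => by
        have ha := (hmem a.1).1 a.2
        have hb := (hmem b.1).1 b.2
        show ((⊤ : (addUniv H D).Subgraph).deleteVerts T).coe.Adj (f a) (f b) ↔ H.Adj a.1 b.1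
        simp only [f, SimpleGraph.Subgraph.coe_adj, SimpleGraph.Subgraph.deleteVerts_adj,
          SimpleGraph.Subgraph.verts_top, SimpleGraph.Subgraph.top_adj, Set.mem_univ, true_and]
        constructor
        · exact fun h => h.2.2.2 _ _ rfl rfl
        · refine fun h => ⟨ha, hb, fun h' => h.ne (Sum.inl_injective h'), ?_⟩
          intro x y hx hy
          cases hx; cases hy; exact h⟩
    have hq : oddNum H S = K.oddComponents.ncard := by
      rw [oddNum, ← Set.ncard_image_of_injective _ φ.connectedComponentEquiv.injective]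
      congr 1
      ext C
      obtain ⟨C, rfl⟩ := φ.connectedComponentEquiv.surjective C
      rw [φ.connectedComponentEquiv.injective.mem_set_image]
      have : C.supp.ncard = (φ.connectedComponentEquiv C).supp.ncard :=
        Nat.card_congr (SimpleGraph.ConnectedComponent.isoEquivSupp φ C)
      simp [this]
    have hcard : S.card + D ≤ T.ncard := by
      have h : (Finset.disjSum S (univ : Finset (Fin D))).card ≤ T.toFinset.card := by
        apply card_le_card
        intro y hy
        rcases y with a | i
        · simpa [hS] using hy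
        · simp [hall i]
      rw [Set.ncard_eq_toFinset_card']
      simpa using h
    have := hD S
    omega
  · push Not at hall
    obtain ⟨i, hi⟩ := hall
    have hsub : Subsingleton K.ConnectedComponent := by
      refine ⟨fun c c' => ?_⟩
      have hc : ∀ c, c = K.connectedComponentMk ⟨Sum.inr i, by simpa using hi⟩ := by
        intro c
        induction c using SimpleGraph.ConnectedComponent.ind with
        | h x =>
          rw [SimpleGraph.ConnectedComponent.eq]
          by_cases hx : x = ⟨Sum.inr i, by simpa using hi⟩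
          · rw [hx]
          · refine SimpleGraph.Adj.reachable ?_
            have hxT : x.1 ∉ T := by simpa using x.2
            have hne : x.1 ≠ Sum.inr i := fun h => hx (Subtype.ext h)
            simp only [hK, SimpleGraph.Subgraph.coe_adj, SimpleGraph.Subgraph.deleteVerts_adj,
              SimpleGraph.Subgraph.verts_top, SimpleGraph.Subgraph.top_adj, Set.mem_univ, true_and]
            exact ⟨hxT, hi, hne, fun _ _ _ h => absurd h (by simp)⟩
      rw [hc c, hc c']
    have h1 : K.oddComponents.ncard ≤ 1 :=
      Set.ncard_le_one_of_subsingleton _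
    rcases Set.eq_empty_or_nonempty T with rfl | hne
    · have h2 : Odd (Nat.card ((⊤ : (addUniv H D).Subgraph).deleteVerts ∅).verts) := by
        rw [← SimpleGraph.odd_ncard_oddComponents (G := K)]
        rw [Set.ncard_empty] at hT
        have : K.oddComponents.ncard = 1 := by omega
        rw [this]; exact odd_one
      refine Nat.not_odd_iff_even.2 hpar ?_
      simpa [Nat.card_eq_fintype_card] using h2
    · have := (Set.ncard_pos (Set.toFinite T)).2 hne
      omega

/-- A fixed-point-free involution of a finite set splits it into two halves. -/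
lemma exists_half {α : Type} [Fintype α] [DecidableEq α] (p : α → α)
    (hp : ∀ x, p (p x) = x) (X : Finset α) (hX : ∀ x ∈ X, p x ∈ X ∧ p x ≠ x) :
    ∃ L ⊆ X, 2 * L.card = X.card ∧ (∀ x ∈ X, x ∈ L ↔ p x ∉ L) := by
  classical
  set e := Fintype.equivFin α with he
  refine ⟨X.filter fun x => e x < e (p x), filter_subset _ _, ?_, ?_⟩
  · have hbij : (X.filter fun x => e x < e (p x)).card =
        (X.filter fun x => ¬ e x < e (p x)).card := by
      refine card_bij (fun x _ => p x) ?_ ?_ ?_
      · intro x hx
        simp only [mem_filter] at hx ⊢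
        refine ⟨(hX x hx.1).1, ?_⟩
        rw [hp]; exact not_lt.2 hx.2.le
      · intro a _ b _ h
        rw [← hp a, h, hp]
      · intro y hy
        simp only [mem_filter] at hy
        refine ⟨p y, ?_, hp y⟩
        simp only [mem_filter, hp]
        refine ⟨(hX y hy.1).1, lt_of_le_of_ne (not_lt.1 hy.2) ?_⟩
        exact fun h => (hX y hy.1).2 (e.injective h)
    have := card_filter_add_card_filter_not (s := X) (fun x => e x < e (p x))
    omega
  · intro x hx
    simp only [mem_filter, hx, (hX x hx).1, true_and, hp, not_lt]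
    constructor
    · exact fun h => h.le
    · exact fun h => lt_of_le_of_ne h fun h' => (hX x hx).2 (e.injective h').symm

lemma colorable_of_matching {D : ℕ} (M : (addUniv H D).Subgraph) (hM : M.IsPerfectMatching) :
    ∃ k, 2 * k = Fintype.card V + D ∧ Hᶜ.Colorable k := by
  classical
  have hex : ∀ x, ∃! y, M.Adj x y := fun x => hM.1 (hM.2 x)
  choose p hp hpu using hex
  have hinv : ∀ x, p (p x) = x := fun x => (hpu (p x) x (hp x).symm).symm
  have hne : ∀ x, p x ≠ x := fun x h => by
    have := (hp x).adj_sub.ne
    exact this h.symm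
  obtain ⟨L, -, hL, hiff⟩ := exists_half p hinv univ (fun x _ => ⟨mem_univ _, hne x⟩)
  refine ⟨L.card, ?_, ?_⟩
  · simpa using hL
  let r : V ⊕ Fin D → L := fun x =>
    if h : x ∈ L then ⟨x, h⟩ else ⟨p x, by
      have := hiff x (mem_univ x)
      by_contra h'
      exact h (this.2 h')⟩
  have hr : ∀ x, (r x).1 = x ∨ (r x).1 = p x := by
    intro x
    by_cases h : x ∈ L <;> simp [r, h]
  have hcol : Hᶜ.Colorable (Fintype.card L) := by
    refine ⟨SimpleGraph.Coloring.mk (fun v => (Fintype.equivFin L) (r (Sum.inl v))) ?_⟩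
    intro a b hab h
    have h' : (r (Sum.inl a)).1 = (r (Sum.inl b)).1 :=
      congrArg Subtype.val ((Fintype.equivFin L).injective h)
    obtain ⟨hne', hnadj⟩ := (SimpleGraph.compl_adj _ _ _).1 hab
    have key : p (Sum.inl a) = Sum.inl b := by
      rcases hr (Sum.inl a) with h1 | h1 <;> rcases hr (Sum.inl b) with h2 | h2 <;>
        rw [h1, h2] at h'
      · exact absurd (Sum.inl_injective h') hne'
      · rw [h', hinv]
      · exact h'
      · exact absurd (Sum.inl_injective (by rw [← hinv (Sum.inl a), h', hinv])) hne'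
    have := (hp (Sum.inl a)).adj_sub
    rw [key] at this
    exact hnadj (this.2 a b rfl rfl)
  simpa using hcol

/-- The decomposition: `U` is independent in `H`, every vertex outside `S ∪ U` has at most one
neighbour in `U`, and `Hᶜ` is colourable with `|U| + |W|/2` colours. -/
theorem exists_decomp : ∃ S U : Finset V, Disjoint S U ∧
    (∀ u ∈ U, ∀ u' ∈ U, ¬ H.Adj u u') ∧
    (∀ w ∈ (S ∪ U)ᶜ, ∀ u ∈ U, ∀ u' ∈ U, H.Adj w u → H.Adj w u' → u = u') ∧
    Even ((S ∪ U)ᶜ).card ∧
    Hᶜ.Colorable (U.card + ((S ∪ U)ᶜ).card / 2) ∧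
    Fintype.card V ≤ 2 * (U.card + ((S ∪ U)ᶜ).card / 2) := by
  classical
  obtain ⟨S, -, hmax⟩ := exists_max_image (univ : Finset (Finset V))
    (fun S => (oddNum H S : ℤ) - S.card) univ_nonempty
  have h0 := hmax ∅ (mem_univ _)
  simp only [card_empty, Nat.cast_zero, sub_zero] at h0
  obtain ⟨D, hD⟩ : ∃ D, oddNum H S = S.card + D := ⟨oddNum H S - S.card, by omega⟩
  have hDall : ∀ T, oddNum H T ≤ T.card + D := fun T => by
    have := hmax T (mem_univ _)
    omega
  have hSn : S.card ≤ Fintype.card V := card_le_univ S
  have hpar : Even (Fintype.card V + D) := by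
    have := oddNum_parity H S
    rw [hD] at this
    rw [Nat.even_iff]
    simp only [Nat.odd_iff] at this
    omega
  obtain ⟨M, hM⟩ := SimpleGraph.tutte.2 (fun T => no_violator H hpar hDall T)
  obtain ⟨k, hk, hcol⟩ := colorable_of_matching H M hM
  set Q := (restG H S).oddComponents with hQ
  have hrepinj : Function.Injective fun C : Q => (C.1.out).1 := by
    intro C C' h
    have h' : C.1.out = C'.1.out := Subtype.ext h
    apply Subtype.ext
    rw [← Quot.out_eq C.1, ← Quot.out_eq C'.1, h']
  set U : Finset V := univ.image fun C : Q => (C.1.out).1 with hU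
  have hUc : U.card = oddNum H S := by
    rw [hU, card_image_of_injective _ hrepinj, card_univ, oddNum, ← hQ,
      Set.ncard_eq_toFinset_card', Set.toFinset_card]
  have hUS : ∀ u ∈ U, u ∉ S := by
    intro u hu
    obtain ⟨C, -, rfl⟩ := mem_image.1 hu
    exact (C.1.out).2
  have hdis : Disjoint S U := disjoint_right.2 hUS
  have hcomp : ∀ u ∈ U, ∃ C : Q, u = (C.1.out).1 ∧ ∀ x : {x // x ∉ S}, H.Adj x.1 u →
      (restG H S).connectedComponentMk x = C.1 := by
    intro u hu
    obtain ⟨C, -, rfl⟩ := mem_image.1 hu
    refine ⟨C, rfl, fun x hx => ?_⟩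
    conv_rhs => rw [← Quot.out_eq C.1]
    exact SimpleGraph.ConnectedComponent.sound (SimpleGraph.Adj.reachable hx)
  have hWc : ((S ∪ U)ᶜ).card + S.card + U.card = Fintype.card V := by
    have := card_compl_add_card (S ∪ U)
    rw [card_union_of_disjoint hdis] at this
    omega
  refine ⟨S, U, hdis, ?_, ?_, ?_, ?_, ?_⟩
  · intro u hu u' hu' hadj
    obtain ⟨C, hC1, -⟩ := hcomp u hu
    obtain ⟨C', hC1', hC'⟩ := hcomp u' hu'
    have h1 := hC' ⟨u, hUS u hu⟩ hadj
    have : C = C' := by
      apply Subtype.ext
      rw [← h1]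
      conv_lhs => rw [← Quot.out_eq C.1]
      congr 1
      exact Subtype.ext hC1.symm
    subst this
    rw [hC1, hC1'] at hadj
    exact H.irrefl hadj
  · intro w hw u hu u' hu' h1 h2
    have hwS : w ∉ S := fun h => mem_compl.1 hw (mem_union_left _ h)
    obtain ⟨C, hC1, hC⟩ := hcomp u hu
    obtain ⟨C', hC1', hC'⟩ := hcomp u' hu'
    have : C = C' := Subtype.ext ((hC ⟨w, hwS⟩ h1).symm.trans (hC' ⟨w, hwS⟩ h2))
    rw [hC1, hC1', this]
  · rw [Nat.even_iff] at hpar ⊢
    omega
  · have : k = U.card + ((S ∪ U)ᶜ).card / 2 := by omega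
    rwa [← this]
  · omega

end Vale.Agent.P060
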