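import Vale.Agent.P060.CliquePart

/-!
Gallai's theorem on small vertex-critical graphs, in the language of clique partitions of the
complement: if `X` needs `c` cliques of `H`, every vertex deletion lowers this number and `H[X]`
is connected, then `2 c ≤ |X| + 1`.
-/

set_option linter.unusedSectionVars false

namespace Vale.Agent.P060

open Finset

variable {V : Type} [Fintype V] [DecidableEq V] {H : SimpleGraph V}

lemma comps_restrict {Z Z' C : Finset V} (hC : C ∈ comps H Z) (h1 : C ⊆ Z') (h2 : Z' ⊆ Z) :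
    C ∈ comps H Z' := by
  obtain ⟨x, hx⟩ := comp_nonempty hC
  suffices C = compOf H Z' x by rw [this]; exact mem_image_of_mem _ (h1 hx)
  have hwalk : ∀ (a b : V), (within H Z).Walk a b → a ∈ C → (within H Z').Reachable a b := by
    intro a b w
    induction w with
    | nil => exact fun _ => SimpleGraph.Reachable.refl _
    | cons h _ ih =>
      intro ha
      have hc := comp_closed hC ha h.2.2 h.1
      exact (SimpleGraph.Adj.reachable (G := within H Z') ⟨h.1, h1 ha, h1 hc⟩).trans (ih hc)
  ext y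
  rw [mem_compOf]
  constructor
  · intro hy
    refine ⟨h1 hy, ?_⟩
    rw [comp_eq hC hx, mem_compOf] at hy
    obtain ⟨w⟩ := hy.2
    exact hwalk x y w hx
  · rintro ⟨hy, hr⟩
    rw [comp_eq hC hx, mem_compOf]
    exact ⟨h2 hy, hr.mono (show within H Z' ≤ within H Z from
      fun a b h => ⟨h.1, h2 h.2.1, h2 h.2.2⟩)⟩

/-- Gluing pieces: every odd component takes at most one matched vertex from outside. -/
lemma epart_pieces {ι : Type} [Fintype ι] (v : ι → V) (g : ι → Finset V) (hg : Function.Injective g)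
    (hadj : ∀ s, ∃ e ∈ g s, H.Adj (v s) e) (I : Finset (Finset V))
    (hne : ∀ C ∈ I, C.Nonempty)
    (hfc : ∀ C ∈ I, ∀ r ∈ C, EPart H (C.erase r) ((C.card - 1) / 2)) :
    EPart H (I.biUnion fun C => C ∪ (univ.filter fun s => g s = C).image v)
      (∑ C ∈ I, (1 + (C.card - 1) / 2)) := by
  classical
  refine EPart.biUnion I _ _ fun C hC => ?_
  rcases (univ.filter fun s => g s = C).eq_empty_or_nonempty with h0 | ⟨s, hs⟩
  · obtain ⟨r, hr⟩ := hne C hC
    have := (epart_small (H := H) (X := {r}) (by simp) (by simp)).union (hfc C hC r hr)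
    rw [h0, image_empty, union_empty]
    rwa [← insert_eq, insert_erase hr] at this
  · have hsC : g s = C := (mem_filter.1 hs).2
    obtain ⟨e, he, hae⟩ := hadj s
    rw [hsC] at he
    have h1 := (epart_small (H := H) (X := {v s, e}) card_le_two (by
      intro x hx y hy hxy
      simp only [mem_insert, mem_singleton] at hx hy
      rcases hx with rfl | rfl <;> rcases hy with rfl | rfl
      · exact absurd rfl hxy
      · exact hae
      · exact hae.symm
      · exact absurd rfl hxy)).union (hfc C hC e he)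
    have heq : (univ.filter fun s => g s = C) = {s} := by
      ext s'
      simp only [mem_filter, mem_univ, true_and, mem_singleton]
      exact ⟨fun h => hg (h.trans hsC.symm), fun h => h ▸ hsC⟩
    rw [heq, image_singleton]
    have hset : C ∪ {v s} = {v s, e} ∪ C.erase e := by
      ext x
      simp only [mem_union, mem_singleton, mem_insert, mem_erase]
      by_cases hx : x = e
      · subst hx; simp [he]
      · simp [hx, or_comm]
    rw [hset]
    exact h1

open Classical in
/-- Gallai's theorem: a small vertex-critical graph has disconnected complement. -/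
theorem join_or_large {X : Finset V} {c : ℕ} (hc : CPart H X c)
    (hopt : ∀ c', CPart H X c' → c ≤ c')
    (hcrit : ∀ x ∈ X, ∃ c' < c, CPart H (X.erase x) c') :
    2 * c ≤ X.card + 1 ∨
      ∃ A, A ⊆ X ∧ A.Nonempty ∧ (X \ A).Nonempty ∧ ∀ x ∈ A, ∀ y ∈ X \ A, ¬ H.Adj x y := by
  -- a colouring with the fewest vertices outside classes of size at most two
  let P : ℕ → Prop := fun m => ∃ B b j, B ⊆ X ∧ CPart H B b ∧ EPart H (X \ B) j ∧ b + j = c ∧
    B.card = m
  have hP : ∃ m, P m :=
    ⟨X.card, X, c, 0, subset_refl _, hc, by rw [sdiff_self]; exact epart_empty, rfl, rfl⟩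
  obtain ⟨B, b, j, hBX, hB, hY, hsum, hBc⟩ := Nat.find_spec hP
  have hmin : ∀ B' b' j', B' ⊆ X → CPart H B' b' → EPart H (X \ B') j' → b' + j' ≤ c →
      B.card ≤ B'.card := by
    intro B' b' j' h1 h2 h3 h4
    rw [hBc]
    refine Nat.find_min' hP ⟨B', b', j', h1, h2, h3, ?_, rfl⟩
    refine le_antisymm h4 (hopt _ ?_)
    exact (h2.union h3.cpart).mono (by rw [union_sdiff_of_subset h1]) le_rfl
  set Y := X \ B with hYdef
  have hBY : B ∪ Y = X := union_sdiff_of_subset hBX
  have hXc : B.card + Y.card = X.card := by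
    rw [← card_union_of_disjoint disjoint_sdiff, hBY]
  have hb2 : 2 * b ≤ B.card := by
    obtain ⟨f, f1, f2⟩ := hB
    by_contra hlt
    push Not at hlt
    obtain ⟨i, hi, hi'⟩ : ∃ i ∈ range b, (B.filter fun x => f x = i).card ≤ 1 := by
      by_contra hno
      push Not at hno
      have h1 := card_eq_sum_card_fiberwise (f := f) (s := B) (t := range b)
        (fun x hx => mem_range.2 (f1 x hx))
      have h2 := (range b).card_nsmul_le_sum (fun i => (B.filter fun x => f x = i).card) 2
        (fun i hi => hno i hi)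
      rw [card_range, smul_eq_mul] at h2
      omega
    set F := B.filter fun x => f x = i with hF
    have hB' : CPart H (B \ F) (b - 1) := by
      refine (cpart_image (f := f) fun x hx y hy => f2 x (mem_sdiff.1 hx).1 y (mem_sdiff.1 hy).1).mono
        (subset_refl _) ?_
      rw [← card_range b, ← card_erase_of_mem hi]
      refine card_le_card fun k hk => ?_
      obtain ⟨x, hx, rfl⟩ := mem_image.1 hk
      obtain ⟨hx1, hx2⟩ := mem_sdiff.1 hx
      exact mem_erase.2 ⟨fun h => hx2 (mem_filter.2 ⟨hx1, h⟩), mem_range.2 (f1 x hx1)⟩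
    have hbpos : 1 ≤ b := by have := mem_range.1 hi; omega
    rcases F.eq_empty_or_nonempty with h0 | hne
    · rw [h0, sdiff_empty] at hB'
      have := hopt _ ((hB'.union hY.cpart).mono (by rw [hBY]) le_rfl)
      omega
    · have hFs : EPart H F 1 := epart_small (by omega) fun x hx y hy hxy =>
        absurd (card_le_one.1 hi' x hx y hy) hxy
      have hY' : EPart H (X \ (B \ F)) (j + 1) := by
        have := hY.union hFs
        have e : X \ (B \ F) = Y ∪ F := by
          ext x
          simp only [hYdef, mem_sdiff, mem_union]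
          constructor
          · rintro ⟨h1, h2⟩
            by_cases hx : x ∈ B
            · exact Or.inr (by_contra fun h => h2 ⟨hx, h⟩)
            · exact Or.inl ⟨h1, hx⟩
          · rintro (⟨h1, h2⟩ | h)
            · exact ⟨h1, fun h => h2 h.1⟩
            · exact ⟨hBX (mem_filter.1 h).1, fun h' => h'.2 h⟩
        rwa [e]
      have := hmin _ _ _ (sdiff_subset.trans hBX) hB' hY' (by omega)
      have h3 : (B \ F).card < B.card :=
        card_lt_card (sdiff_ssubset (filter_subset _ _) hne)
      omega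
  have hYle := hY.card_le
  rcases le_or_gt (2 * j) (Y.card + 1) with hsmall | hD
  · left; omega
  right
  have hj : ∀ j', EPart H Y j' → j ≤ j' := by
    intro j' h
    have := hopt _ ((hB.union h.cpart).mono (by rw [hBY]) le_rfl)
    omega
  -- a set of maximal deficiency, as large as possible
  obtain ⟨S, hS, hkey⟩ := exists_max_image Y.powerset
    (fun S => ((oddC H (Y \ S)).card + Y.card - S.card) * (Y.card + 1) + S.card)
    ⟨∅, empty_mem_powerset _⟩
  rw [mem_powerset] at hS
  set Q := oddC H (Y \ S) with hQ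
  have hScard := card_le_card hS
  have hmax : ∀ S' ⊆ Y, (oddC H (Y \ S')).card + S.card < Q.card + S'.card ∨
      ((oddC H (Y \ S')).card + S.card = Q.card + S'.card ∧ S'.card ≤ S.card) := by
    intro S' hS'
    have h := hkey S' (mem_powerset.2 hS')
    have hc' := card_le_card hS'
    rcases lt_trichotomy ((oddC H (Y \ S')).card + Y.card - S'.card)
      (Q.card + Y.card - S.card) with h1 | h1 | h1
    · left; omega
    · right
      refine ⟨by omega, ?_⟩
      simp only [h1] at h
      omega
    · exfalso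
      have h2 : (Q.card + Y.card - S.card + 1) * (Y.card + 1) ≤
          ((oddC H (Y \ S')).card + Y.card - S'.card) * (Y.card + 1) := Nat.mul_le_mul_right _ h1
      rw [Nat.add_mul, one_mul] at h2
      omega
  have hQS : S.card ≤ Q.card := by
    rcases hmax ∅ (empty_subset _) with h | ⟨h, -⟩ <;> simp only [card_empty] at h <;> omega
  have hcl : ∀ C ∈ Q, C ∈ comps H (Y \ S) ∧ Odd C.card := fun C hC => mem_filter.1 hC
  have heq : Y.card + Q.card = 2 * j + S.card := by
    have h1 := epart_bound hY hS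
    rw [← hQ] at h1
    have hp : Even (Y.card + (Q.card - S.card)) := by
      have h := oddC_parity H (Y \ S)
      rw [← hQ, card_sdiff_of_subset hS] at h
      simp only [Nat.odd_iff] at h
      rw [Nat.even_iff]
      omega
    obtain ⟨j', hj', hY'⟩ := exists_epart H Y (Q.card - S.card) hp (fun S' hS' => by
      rcases hmax S' hS' with h | ⟨h, -⟩ <;> omega)
    have := hj j' hY'
    omega
  -- closed parts give competitors for `S`
  have hrefine : ∀ K R X', R ⊆ K → X' ⊆ K \ R → K ⊆ Y \ S →
      (∀ x ∈ K, ∀ y ∈ Y \ S, H.Adj x y → y ∈ K) →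
      (Q.filter fun C => Disjoint C K).card + (oddC H ((K \ R) \ X')).card ≤
          (oddC H (Y \ (S ∪ R ∪ X'))).card ∧
        (S ∪ R ∪ X').card = S.card + R.card + X'.card ∧ S ∪ R ∪ X' ⊆ Y := by
    intro K R X' hR hX' hK hclosed
    have hRS : Disjoint S R := disjoint_right.2 fun x hx => (mem_sdiff.1 (hK (hR hx))).2
    have hXS : Disjoint (S ∪ R) X' := disjoint_right.2 fun x hx h => by
      obtain ⟨h1, h2⟩ := mem_sdiff.1 (hX' hx)
      exact (mem_union.1 h).elim (mem_sdiff.1 (hK h1)).2 h2
    refine ⟨?_, by rw [card_union_of_disjoint hXS, card_union_of_disjoint hRS], ?_⟩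
    · rw [← card_union_of_disjoint]
      · apply card_le_card
        intro C hC
        rcases mem_union.1 hC with hC | hC
        · obtain ⟨hC, hdis⟩ := mem_filter.1 hC
          refine mem_filter.2 ⟨comps_restrict (hcl C hC).1 ?_
            (sdiff_subset_sdiff (subset_refl _) (subset_union_left.trans subset_union_left)),
            (hcl C hC).2⟩
          intro x hx
          obtain ⟨h1, h2⟩ := mem_sdiff.1 (comp_sub (hcl C hC).1 hx)
          refine mem_sdiff.2 ⟨h1, fun h => ?_⟩
          have hxK : x ∉ K := disjoint_left.1 hdis hx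
          rcases mem_union.1 h with h | h
          · rcases mem_union.1 h with h | h
            · exact h2 h
            · exact hxK (hR h)
          · exact hxK (mem_sdiff.1 (hX' h)).1
        · obtain ⟨hC1, hC2⟩ := mem_filter.1 hC
          refine mem_filter.2 ⟨comps_of_closed hC1 ?_ ?_, hC2⟩
          · intro x hx
            obtain ⟨h1, h2⟩ := mem_sdiff.1 hx
            obtain ⟨h3, h4⟩ := mem_sdiff.1 h1
            obtain ⟨h5, h6⟩ := mem_sdiff.1 (hK h3)
            simp [h5, h6, h4, h2]
          · intro x hx y hy hxy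
            obtain ⟨hy1, hy2⟩ := mem_sdiff.1 hy
            simp only [mem_union, not_or] at hy2
            obtain ⟨h1, -⟩ := mem_sdiff.1 (comp_sub hC1 hx)
            have := hclosed x (mem_sdiff.1 h1).1 y (mem_sdiff.2 ⟨hy1, hy2.1.1⟩) hxy
            exact comp_closed hC1 hx (mem_sdiff.2 ⟨mem_sdiff.2 ⟨this, hy2.1.2⟩, hy2.2⟩) hxy
      · refine disjoint_left.2 fun C hC hC' => ?_
        obtain ⟨x, hx⟩ := comp_nonempty (mem_filter.1 hC').1
        have := mem_sdiff.1 (comp_sub (mem_filter.1 hC').1 hx)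
        exact disjoint_left.1 (mem_filter.1 hC).2 hx (mem_sdiff.1 this.1).1
    · refine union_subset (union_subset hS fun x hx => ?_) fun x hx => ?_
      · exact (mem_sdiff.1 (hK (hR hx))).1
      · exact (mem_sdiff.1 (hK (mem_sdiff.1 (hX' hx)).1)).1
  -- odd components are factor-critical
  have hfc : ∀ C ∈ Q, ∀ r ∈ C, EPart H (C.erase r) ((C.card - 1) / 2) := by
    intro C hC r hr
    obtain ⟨hC1, hC2⟩ := hcl C hC
    have hec : (C.erase r).card = C.card - 1 := card_erase_of_mem hr
    obtain ⟨j', hj', he⟩ := exists_epart H (C.erase r) 0 (by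
      rw [hec, Nat.even_iff]; rw [Nat.odd_iff] at hC2; omega) (fun X' hX' => by
      by_contra hlt
      push Not at hlt
      have hp := oddC_parity H (C.erase r \ X')
      rw [card_sdiff_of_subset hX', hec] at hp
      simp only [Nat.odd_iff] at hp
      rw [Nat.odd_iff] at hC2
      have hle := card_le_card hX'
      rw [hec] at hle
      rw [erase_eq] at hX' hlt hp
      obtain ⟨h1, h2, h3⟩ := hrefine C {r} X' (singleton_subset_iff.2 hr) hX' (comp_sub hC1)
        (fun x hx y hy => comp_closed hC1 hx hy)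
      have h4 : Q.card ≤ (Q.filter fun C' => Disjoint C' C).card + 1 := by
        have : Q.erase C ⊆ Q.filter fun C' => Disjoint C' C := fun C' hC' => by
          obtain ⟨h5, h6⟩ := mem_erase.1 hC'
          exact mem_filter.2 ⟨h6, disjoint_left.2 fun x hx hx' =>
            h5 (comp_unique (hcl C' h6).1 hC1 hx hx')⟩
        have := card_le_card this
        rw [card_erase_of_mem hC] at this
        omega
      rw [card_singleton] at h2
      rcases hmax _ h3 with h | ⟨h, h'⟩ <;> omega)
    rwa [show j' = (C.card - 1) / 2 by omega] at he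
  -- the even components
  set E := (Y \ S) \ Q.biUnion id with hE
  have hQdis : (Q : Set (Finset V)).PairwiseDisjoint id := fun C hC C' hC' hne =>
    disjoint_left.2 fun x hx hx' => hne (comp_unique (hcl C hC).1 (hcl C' hC').1 hx hx')
  have hQsub : Q.biUnion id ⊆ Y \ S := fun x hx => by
    obtain ⟨C, hC, hx⟩ := mem_biUnion.1 hx
    exact comp_sub (hcl C hC).1 hx
  have hQsum : ∑ C ∈ Q, C.card + E.card = (Y \ S).card := by
    have h1 : (Q.biUnion id).card = ∑ C ∈ Q, C.card := card_biUnion hQdis
    have h2 := card_le_card hQsub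
    rw [hE, card_sdiff_of_subset hQsub, ← h1]
    omega
  have hQhalf : 2 * (∑ C ∈ Q, (1 + (C.card - 1) / 2)) = ∑ C ∈ Q, C.card + Q.card := by
    rw [mul_sum, card_eq_sum_ones Q, ← sum_add_distrib]
    refine sum_congr rfl fun C hC => ?_
    obtain ⟨-, h⟩ := hcl C hC
    rw [Nat.odd_iff] at h
    omega
  have hScd := card_sdiff_of_subset hS
  have hEeven : EPart H E (E.card / 2) := by
    have hEeven : E.card % 2 = 0 := by omega
    obtain ⟨j', hj', he⟩ := exists_epart H E 0 (by rw [Nat.even_iff]; omega) (fun X' hX' => by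
      by_contra hlt
      push Not at hlt
      have hp := oddC_parity H (E \ X')
      rw [card_sdiff_of_subset hX'] at hp
      simp only [Nat.odd_iff] at hp
      have := card_le_card hX'
      obtain ⟨h1, h2, h3⟩ := hrefine E ∅ X' (empty_subset _) (by simpa using hX') sdiff_subset
        (fun x hx y hy hxy => mem_sdiff.2 ⟨hy, fun h => by
          obtain ⟨C, hC, hyC⟩ := mem_biUnion.1 h
          exact (mem_sdiff.1 hx).2 (mem_biUnion.2 ⟨C, hC,
            comp_closed (hcl C hC).1 hyC (mem_sdiff.1 hx).1 hxy.symm⟩)⟩)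
      have h4 : (Q.filter fun C' => Disjoint C' E) = Q := filter_eq_self.2 fun C hC =>
        disjoint_left.2 fun x hx hx' => (mem_sdiff.1 hx').2 (mem_biUnion.2 ⟨C, hC, hx⟩)
      rw [sdiff_empty, h4] at h1
      rw [card_empty] at h2
      rcases hmax _ h3 with h | ⟨h, h'⟩ <;> omega)
    rwa [show j' = E.card / 2 by omega] at he
  -- Hall
  let nb : S → Finset (Finset V) := fun s => Q.filter fun C => ∃ e ∈ C, H.Adj s.1 e
  obtain ⟨f0, hf0inj, hf0⟩ : ∃ f : S → Finset V, Function.Injective f ∧ ∀ s, f s ∈ nb s := by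
    rw [← all_card_le_biUnion_card_iff_exists_injective]
    intro A
    by_contra hlt
    push Not at hlt
    set A' := A.map ⟨Subtype.val, Subtype.val_injective⟩ with hA'
    have hA'S : A' ⊆ S := fun x hx => by
      obtain ⟨s, -, rfl⟩ := mem_map.1 hx
      exact s.2
    have hsub : Q \ A.biUnion nb ⊆ oddC H (Y \ (S \ A')) := by
      intro C hC
      obtain ⟨hCQ, hCn⟩ := mem_sdiff.1 hC
      obtain ⟨hC1, hC2⟩ := hcl C hCQ
      refine mem_filter.2 ⟨comps_of_closed hC1 ?_ ?_, hC2⟩
      · intro x hx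
        obtain ⟨h1, h2⟩ := mem_sdiff.1 hx
        simp [h1, h2]
      · intro x hx y hy hxy
        obtain ⟨hy1, hy2⟩ := mem_sdiff.1 hy
        by_cases hyS : y ∈ S
        · exfalso
          have : y ∈ A' := by_contra fun h => hy2 (mem_sdiff.2 ⟨hyS, h⟩)
          obtain ⟨s, hs, rfl⟩ := mem_map.1 this
          exact hCn (mem_biUnion.2 ⟨s, hs, mem_filter.2 ⟨hCQ, x, hx, hxy.symm⟩⟩)
        · exact comp_closed hC1 hx (mem_sdiff.2 ⟨hy1, hyS⟩) hxy
    have h1 := card_le_card hsub
    have h2 := le_card_sdiff (A.biUnion nb) Q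
    have h3 := card_sdiff_of_subset hA'S
    have h4 : A'.card = A.card := card_map _
    have h5 := card_le_card hA'S
    rcases hmax (S \ A') (sdiff_subset.trans hS) with h | ⟨h, h'⟩ <;> omega
  let step : Finset (Finset V) → Finset (Finset V) := fun Ln =>
    Ln ∪ (univ.filter fun s : S => ∃ C ∈ Ln, ∃ e ∈ C, H.Adj s.1 e).image f0
  let L : ℕ → Finset (Finset V) := fun n => step^[n] (Q \ univ.image f0)
  have hLsucc : ∀ n : ℕ, L (n + 1) =
      L n ∪ (univ.filter fun s : S => ∃ C ∈ L n, ∃ e ∈ C, H.Adj s.1 e).image f0 := fun n =>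
    Function.iterate_succ_apply' step n _
  have hLQ : ∀ n, L n ⊆ Q := by
    intro n
    induction n with
    | zero => exact sdiff_subset
    | succ n ih =>
      rw [hLsucc]
      exact union_subset ih fun C hC => by
        obtain ⟨s, -, rfl⟩ := mem_image.1 hC
        exact (mem_filter.1 (hf0 s)).1
  have haug : ∀ n, ∀ C ∈ L n, ∃ g : S → Finset V, Function.Injective g ∧ (∀ s, g s ∈ nb s) ∧
      (∀ s, g s ≠ C) ∧ ∀ s, g s ≠ f0 s → f0 s ∈ L n := by
    intro n
    induction n with
    | zero =>
      intro C hC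
      exact ⟨f0, hf0inj, hf0, fun s h => (mem_sdiff.1 hC).2 (h ▸ mem_image_of_mem _ (mem_univ s)),
        fun s h => absurd rfl h⟩
    | succ n ih =>
      intro C' hC'
      rcases Classical.em (C' ∈ L n) with hold | hold
      · obtain ⟨g, g1, g2, g3, g4⟩ := ih C' hold
        exact ⟨g, g1, g2, g3, fun s h => by rw [hLsucc]; exact mem_union_left _ (g4 s h)⟩
      rw [hLsucc] at hC'
      obtain ⟨s0, hs0, rfl⟩ := mem_image.1 ((mem_union.1 hC').resolve_left hold)
      obtain ⟨C, hC, e, he, hae⟩ := (mem_filter.1 hs0).2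
      obtain ⟨g, g1, g2, g3, g4⟩ := ih C hC
      have hgs : g s0 = f0 s0 := by_contra fun h => hold (g4 s0 h)
      refine ⟨Function.update g s0 C, ?_, fun s => ?_, fun s => ?_, fun s h => ?_⟩
      · intro a b hab
        by_cases ha : a = s0 <;> by_cases hb : b = s0 <;> simp [ha, hb] at hab ⊢
        · exact absurd hab.symm (g3 b)
        · exact absurd hab (g3 a)
        · exact g1 hab
      · by_cases h : s = s0
        · subst h
          rw [Function.update_self]
          exact mem_filter.2 ⟨hLQ n hC, e, he, hae⟩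
        · rw [Function.update_of_ne h]; exact g2 s
      · by_cases h : s = s0
        · subst h
          rw [Function.update_self]
          exact fun hh => hold (hh ▸ hC)
        · rw [Function.update_of_ne h, ← hgs]
          exact fun hh => h (g1 hh)
      · rw [hLsucc]
        by_cases h' : s = s0
        · subst h'; exact mem_union_right _ (mem_image_of_mem _ hs0)
        · rw [Function.update_of_ne h'] at h
          exact mem_union_left _ (g4 s h)
  -- removing one reachable component
  have hrest : ∀ n, ∀ C ∈ L n, ∃ j', 2 * j' + C.card + 1 = 2 * j ∧ EPart H (Y \ C) j' := by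
    intro n C hC
    obtain ⟨g, g1, g2, g3, -⟩ := haug n C hC
    have hp := (epart_pieces (fun s : S => s.1) g g1 (fun s => (mem_filter.1 (g2 s)).2) (Q.erase C)
      (fun D hD => comp_nonempty (hcl D (mem_of_mem_erase hD)).1)
      (fun D hD => hfc D (mem_of_mem_erase hD))).union hEeven
    refine ⟨(∑ D ∈ Q.erase C, (1 + (D.card - 1) / 2)) + E.card / 2, ?_, ?_⟩
    · have h1 := sum_erase_add Q (fun C => 1 + (C.card - 1) / 2) (hLQ n hC)
      have h2 := (hcl C (hLQ n hC)).2
      rw [Nat.odd_iff] at h2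
      omega
    · obtain ⟨p, p1, p2, p3⟩ := hp
      have hsub : Y \ C ⊆ (Q.erase C).biUnion
          (fun D => D ∪ (univ.filter fun s : S => g s = D).image fun s => s.1) ∪ E := by
        intro x hx
        obtain ⟨hx1, hx2⟩ := mem_sdiff.1 hx
        by_cases hxS : x ∈ S
        · refine mem_union_left _ (mem_biUnion.2 ⟨g ⟨x, hxS⟩, mem_erase.2 ⟨g3 _,
            (mem_filter.1 (g2 _)).1⟩, mem_union_right _ (mem_image.2 ⟨⟨x, hxS⟩, by simp, rfl⟩)⟩)
        by_cases hxQ : x ∈ Q.biUnion id
        · obtain ⟨D, hD, hxD⟩ := mem_biUnion.1 hxQ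
          exact mem_union_left _ (mem_biUnion.2 ⟨D, mem_erase.2 ⟨fun h => hx2 (h ▸ hxD), hD⟩,
            mem_union_left _ hxD⟩)
        · exact mem_union_right _ (mem_sdiff.2 ⟨mem_sdiff.2 ⟨hx1, hxS⟩, hxQ⟩)
      exact ⟨p, fun x hx => p1 x (hsub hx), fun x hx y hy => p2 x (hsub hx) y (hsub hy),
        fun i => (card_le_card (filter_subset_filter _ hsub)).trans (p3 i)⟩
  have hCY : ∀ n, ∀ C ∈ L n, C ⊆ Y := fun n C hC =>
    (comp_sub (hcl C (hLQ n hC)).1).trans sdiff_subset
  -- no edge from a reachable component to `B`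
  have hnoB : ∀ n, ∀ C ∈ L n, ∀ r ∈ C, ∀ y ∈ B, ¬ H.Adj r y := by
    intro n C hC r hr y hy hry
    obtain ⟨j', hj', hE'⟩ := hrest n C hC
    have hry' : EPart H {r, y} 1 := epart_small card_le_two (by
      intro a ha b' hb' hab
      simp only [mem_insert, mem_singleton] at ha hb'
      rcases ha with rfl | rfl <;> rcases hb' with rfl | rfl
      · exact absurd rfl hab
      · exact hry
      · exact hry.symm
      · exact absurd rfl hab)
    have hnew := (hE'.union (hfc C (hLQ n hC) r hr)).union hry'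
    have hset : X \ B.erase y = (Y \ C) ∪ C.erase r ∪ {r, y} := by
      ext x
      simp only [hYdef, mem_sdiff, mem_union, mem_erase, mem_insert, mem_singleton]
      constructor
      · rintro ⟨h1, h2⟩
        by_cases hxy : x = y
        · exact Or.inr (Or.inr hxy)
        by_cases hxr : x = r
        · exact Or.inr (Or.inl hxr)
        by_cases hxC : x ∈ C
        · exact Or.inl (Or.inr ⟨hxr, hxC⟩)
        exact Or.inl (Or.inl ⟨⟨h1, fun h => h2 ⟨hxy, h⟩⟩, hxC⟩)
      · rintro ((⟨⟨h1, h2⟩, -⟩ | ⟨-, h⟩) | rfl | rfl)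
        · exact ⟨h1, fun h => h2 h.2⟩
        · have := mem_sdiff.1 (hCY n C hC h)
          exact ⟨this.1, fun h' => this.2 h'.2⟩
        · have := mem_sdiff.1 (hCY n C hC hr)
          exact ⟨this.1, fun h' => this.2 h'.2⟩
        · exact ⟨hBX hy, fun h => h.1 rfl⟩
    rw [← hset] at hnew
    have h2 := (hcl C (hLQ n hC)).2
    rw [Nat.odd_iff] at h2
    have := hmin _ _ _ ((erase_subset _ _).trans hBX) (hB.mono (erase_subset _ _) le_rfl) hnew
      (by omega)
    have := card_erase_lt_of_mem hy
    omega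
  -- reachable components are tight
  have htight : ∀ n, ∀ C ∈ L n, ∀ i, CPart H C i → C.card + 1 ≤ 2 * i := by
    intro n C hC i hi
    obtain ⟨j', hj', hE'⟩ := hrest n C hC
    have := hopt _ (((hB.union hE'.cpart).union hi).mono (by
      rw [union_assoc, sdiff_union_of_subset (hCY n C hC), hBY]) le_rfl)
    omega
  let T : Finset (Finset V) := Q.filter fun C : Finset V => ∃ n : ℕ, C ∈ L n
  set S0 := S.filter fun x => ∃ h : x ∈ S, f0 ⟨x, h⟩ ∈ T with hS0
  have hclT : ∀ C ∈ T, ∀ r ∈ C, ∀ y ∈ X, y ∉ S0 → H.Adj r y → y ∈ C := by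
    intro C hC r hr y hy hyS0 hry
    obtain ⟨hCQ, n, hn⟩ := mem_filter.1 hC
    by_cases hyB : y ∈ B
    · exact absurd hry (hnoB n C hn r hr y hyB)
    have hyY : y ∈ Y := mem_sdiff.2 ⟨hy, hyB⟩
    by_cases hyS : y ∈ S
    · exfalso
      refine hyS0 (mem_filter.2 ⟨hyS, hyS, mem_filter.2 ⟨(mem_filter.1 (hf0 _)).1, n + 1, ?_⟩⟩)
      rw [hLsucc]
      exact mem_union_right _ (mem_image_of_mem _ (mem_filter.2 ⟨mem_univ _, C, hn, r, hr, hry.symm⟩))
    · exact comp_closed (hcl C hCQ).1 hr (mem_sdiff.2 ⟨hyY, hyS⟩) hry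
  set U := T.biUnion id with hU
  have hUX : ∀ C ∈ T, C ⊆ X \ S0 := fun C hC x hx => by
    obtain ⟨h1, h2⟩ := mem_sdiff.1 (comp_sub (hcl C (mem_filter.1 hC).1).1 hx)
    exact mem_sdiff.2 ⟨(mem_sdiff.1 h1).1, fun h => h2 (mem_filter.1 h).1⟩
  have hS0e : S0 = ∅ := by
    by_contra hne
    obtain ⟨x, hx⟩ := nonempty_of_ne_empty hne
    obtain ⟨c', hc', hcp⟩ := hcrit x ((mem_sdiff.1 (hS (mem_filter.1 hx).1)).1)
    obtain ⟨f, f1, f2⟩ := hcp
    have hsub : X \ S0 ⊆ X.erase x := fun y hy => mem_erase.2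
      ⟨fun h => (mem_sdiff.1 hy).2 (h ▸ hx), (mem_sdiff.1 hy).1⟩
    set W := (X \ S0) \ U with hW
    have hsepT : ∀ C ∈ T, ∀ a ∈ C, ∀ y ∈ X \ S0, f a = f y → y ∈ C := by
      intro C hC a ha y hy he
      by_cases hay : a = y
      · exact hay ▸ ha
      exact hclT C hC a ha y (mem_sdiff.1 hy).1 (mem_sdiff.1 hy).2
        (f2 a (hsub (hUX C hC ha)) y (hsub hy) hay he)
    have hcount : ∑ C ∈ T, (C.image f).card + (W.image f).card ≤ c' := by
      rw [← card_biUnion, ← card_union_of_disjoint, ← card_range c']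
      · refine card_le_card fun k hk => ?_
        simp only [mem_union, mem_biUnion, mem_image] at hk
        rcases hk with ⟨C, hC, y, hy, rfl⟩ | ⟨y, hy, rfl⟩
        · exact mem_range.2 (f1 y (hsub (hUX C hC hy)))
        · exact mem_range.2 (f1 y (hsub (mem_sdiff.1 hy).1))
      · refine disjoint_left.2 fun k hk hk' => ?_
        obtain ⟨C, hC, hk⟩ := mem_biUnion.1 hk
        obtain ⟨a, ha, rfl⟩ := mem_image.1 hk
        obtain ⟨y, hy, he⟩ := mem_image.1 hk'
        exact (mem_sdiff.1 hy).2 (mem_biUnion.2 ⟨C, hC,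
          hsepT C hC a ha y (mem_sdiff.1 hy).1 he.symm⟩)
      · intro C hC D hD hne'
        refine disjoint_left.2 fun k hk hk' => hne' ?_
        obtain ⟨a, ha, rfl⟩ := mem_image.1 hk
        obtain ⟨y, hy, he⟩ := mem_image.1 hk'
        exact comp_unique (hcl C (mem_filter.1 hC).1).1 (hcl D (mem_filter.1 hD).1).1
          (hsepT C hC a ha y (hUX D hD hy) he.symm) hy
    have hle : ∀ C ∈ T, 1 + (C.card - 1) / 2 ≤ (C.image f).card := by
      intro C hC
      obtain ⟨hCQ, n, hn⟩ := mem_filter.1 hC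
      have := htight n C hn _ (cpart_image (f := f)
        fun a ha b' hb' => f2 a (hsub (hUX C hC ha)) b' (hsub (hUX C hC hb')))
      have := card_pos.2 (comp_nonempty (hcl C hCQ).1)
      omega
    have hpieces := (epart_pieces (fun s : S => s.1) f0 hf0inj
      (fun s => (mem_filter.1 (hf0 s)).2) T
      (fun D hD => comp_nonempty (hcl D (mem_filter.1 hD).1).1)
      (fun D hD => hfc D (mem_filter.1 hD).1)).cpart.union
      (cpart_image (X := W) (f := f)
        fun a ha b' hb' => f2 a (hsub (mem_sdiff.1 ha).1) b' (hsub (mem_sdiff.1 hb').1))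
    have := hopt _ (hpieces.mono (fun y hy => ?_) le_rfl)
    · have := sum_le_sum hle
      omega
    · by_cases hyS : y ∈ S0
      · obtain ⟨hy1, hy2, hy3⟩ := mem_filter.1 hyS
        exact mem_union_left _ (mem_biUnion.2 ⟨_, hy3,
          mem_union_right _ (mem_image.2 ⟨⟨y, hy2⟩, by simp, rfl⟩)⟩)
      by_cases hyU : y ∈ U
      · obtain ⟨C, hC, hyC⟩ := mem_biUnion.1 hyU
        exact mem_union_left _ (mem_biUnion.2 ⟨C, hC, mem_union_left _ hyC⟩)
      exact mem_union_right _ (mem_sdiff.2 ⟨mem_sdiff.2 ⟨hy, hyS⟩, hyU⟩)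
  have h0c : 1 < (Q \ univ.image f0).card := by
    have h1 := le_card_sdiff (univ.image f0) Q
    have h2 : (univ.image f0).card ≤ S.card := card_image_le.trans (by simp)
    omega
  obtain ⟨C, hC, D, hD, hCD⟩ := one_lt_card.1 h0c
  have hCQ := (mem_sdiff.1 hC).1
  have hDQ := (mem_sdiff.1 hD).1
  have hCT : C ∈ T := mem_filter.2 ⟨hCQ, 0, hC⟩
  obtain ⟨d, hd⟩ := comp_nonempty (hcl D hDQ).1
  refine ⟨C, fun x hx => (mem_sdiff.1 (hUX C hCT hx)).1, comp_nonempty (hcl C hCQ).1,
    ⟨d, mem_sdiff.2 ⟨(mem_sdiff.1 (mem_sdiff.1 (comp_sub (hcl D hDQ).1 hd)).1).1,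
      fun h => hCD (comp_unique (hcl C hCQ).1 (hcl D hDQ).1 h hd)⟩⟩, fun x hx y hy hxy => ?_⟩
  exact (mem_sdiff.1 hy).2 (hclT C hCT x hx y (mem_sdiff.1 hy).1 (by simp [hS0e]) hxy)

end Vale.Agent.P060
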