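import Mathlib

/-!
Conflict-free pairing in a sparse graph `H` (the complement of a dense graph).
-/

namespace Vale.Agent.P060

open Finset

variable {V : Type} [Fintype V] [DecidableEq V] (H : SimpleGraph V) [DecidableRel H.Adj]

/-- the two blocks `{p,q}` and `{r,s}` are completely joined in `H` -/
def Cf (p q r s : V) : Prop := H.Adj p r ∧ H.Adj p s ∧ H.Adj q r ∧ H.Adj q s

/-- number of common neighbours -/
def codeg (x y : V) : ℕ := (H.neighborFinset x ∩ H.neighborFinset y).card

/-- pairing invariant -/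
structure Inv (t : ℕ) (u : V) (σ : V → V) : Prop where
  invol : ∀ x, σ (σ x) = x
  fix : σ u = u
  pair : ∀ x, σ x ≠ x → ¬ H.Adj x (σ x) ∧ codeg H x (σ x) ≤ t
  nocf : ∀ x y, (σ x ≠ x ∨ x = u) → (σ y ≠ y ∨ y = u) → ¬ Cf H x (σ x) y (σ y)

def addPair (σ : V → V) (p q : V) : V → V :=
  Function.update (Function.update σ p q) q p

def removePair (σ : V → V) (c : V) : V → V :=
  Function.update (Function.update σ c c) (σ c) (σ c)

/-- `q` counts, as ordered pairs, the pairs inside the neighbourhood of `v`. -/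
def qv (σ : V → V) (v : V) : Finset V :=
  univ.filter fun x => σ x ≠ x ∧ H.Adj v x ∧ H.Adj v (σ x)

/-- free neighbours -/
def fv (σ : V → V) (v : V) : Finset V :=
  univ.filter fun x => σ x = x ∧ H.Adj v x

/-- weight -/
noncomputable def wt (A : ℝ) (σ : V → V) (v : V) : ℝ :=
  A ^ (fv H σ v).card * 2 ^ (qv H σ v).card

/-- potential -/
noncomputable def pot (A : ℝ) (σ : V → V) : ℝ := ∑ v, wt H A σ v

variable {H} {t : ℕ} {u : V} {σ : V → V}

lemma addPair_left {p q : V} (h : p ≠ q) : addPair σ p q p = q := by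
  simp [addPair, Function.update_of_ne h]

lemma addPair_right {p q : V} : addPair σ p q q = p := by simp [addPair]

lemma addPair_other {p q x : V} (h1 : x ≠ p) (h2 : x ≠ q) : addPair σ p q x = σ x := by
  simp [addPair, Function.update_of_ne h1, Function.update_of_ne h2]

lemma Cf_comm {p q r s : V} (h : Cf H p q r s) : Cf H r s p q :=
  ⟨h.1.symm, h.2.2.1.symm, h.2.1.symm, h.2.2.2.symm⟩

lemma Cf_swap {p q r s : V} (h : Cf H p q r s) : Cf H q p r s :=
  ⟨h.2.2.1, h.2.2.2, h.1, h.2.1⟩

/-- Adding a pair that is compatible with all blocks keeps the invariant. -/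
lemma Inv.addPair (hI : Inv H t u σ) {p q : V} (hp : σ p = p) (hq : σ q = q) (hpu : p ≠ u)
    (hqu : q ≠ u) (hpq : p ≠ q) (hadj : ¬ H.Adj p q) (hcd : codeg H p q ≤ t)
    (hg : ∀ x, (σ x ≠ x ∨ x = u) → ¬ Cf H p q x (σ x)) :
    Inv H t u (addPair σ p q) := by
  have himg : ∀ x, x ≠ p → x ≠ q → σ x ≠ p ∧ σ x ≠ q := by
    intro x h1 h2
    constructor
    · intro h; apply h1; rw [← hI.invol x, h, hp]
    · intro h; apply h2; rw [← hI.invol x, h, hq]
  have tri : ∀ x, (x = p ∧ P060.addPair σ p q x = q) ∨ (x = q ∧ P060.addPair σ p q x = p) ∨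
      (x ≠ p ∧ x ≠ q ∧ P060.addPair σ p q x = σ x) := by
    intro x
    rcases eq_or_ne x p with rfl | h1
    · exact Or.inl ⟨rfl, addPair_left hpq⟩
    rcases eq_or_ne x q with rfl | h2
    · exact Or.inr (Or.inl ⟨rfl, addPair_right⟩)
    exact Or.inr (Or.inr ⟨h1, h2, addPair_other h1 h2⟩)
  constructor
  · intro x
    rcases tri x with ⟨rfl, h⟩ | ⟨rfl, h⟩ | ⟨h1, h2, h⟩
    · rw [h, addPair_right]
    · rw [h, addPair_left hpq]
    · rw [h, addPair_other (himg x h1 h2).1 (himg x h1 h2).2, hI.invol]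
  · rw [addPair_other (Ne.symm hpu) (Ne.symm hqu), hI.fix]
  · intro x hx
    rcases tri x with ⟨rfl, h⟩ | ⟨rfl, h⟩ | ⟨h1, h2, h⟩ <;> rw [h] at hx ⊢
    · exact ⟨hadj, hcd⟩
    · exact ⟨fun h' => hadj h'.symm, by rw [codeg, inter_comm]; exact hcd⟩
    · exact hI.pair x hx
  · intro x y hx hy hc
    rcases tri x with ⟨rfl, h⟩ | ⟨rfl, h⟩ | ⟨h1, h2, h⟩ <;> rw [h] at hx hc <;>
      rcases tri y with ⟨rfl, h'⟩ | ⟨rfl, h'⟩ | ⟨h1', h2', h'⟩ <;> rw [h'] at hy hc
    · exact H.irrefl hc.1
    · exact H.irrefl hc.2.1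
    · exact hg y hy hc
    · exact H.irrefl hc.2.1
    · exact H.irrefl hc.1
    · exact hg y hy (Cf_swap hc)
    · exact hg x hx (Cf_comm hc)
    · exact hg x hx (Cf_swap (Cf_comm hc))
    · exact hI.nocf x y hx hy hc

lemma qv_addPair (σ : V → V) {p q : V} (hpq : p ≠ q) (v : V) :
    (qv H (addPair σ p q) v).card ≤
      (qv H σ v).card + (if H.Adj v p ∧ H.Adj v q then 2 else 0) := by
  split_ifs with h
  · calc (qv H (addPair σ p q) v).card ≤ (qv H σ v ∪ {p, q}).card := by
          apply card_le_card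
          intro x hx
          simp only [qv, mem_filter, mem_univ, true_and, mem_union, mem_insert,
            mem_singleton] at hx ⊢
          rcases eq_or_ne x p with rfl | h1
          · exact Or.inr (Or.inl rfl)
          rcases eq_or_ne x q with rfl | h2
          · exact Or.inr (Or.inr rfl)
          rw [addPair_other h1 h2] at hx
          exact Or.inl hx
      _ ≤ (qv H σ v).card + 2 :=
          (card_union_le _ _).trans (Nat.add_le_add_left card_le_two _)
  · apply card_le_card
    intro x hx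
    simp only [qv, mem_filter, mem_univ, true_and] at hx ⊢
    rcases eq_or_ne x p with rfl | h1
    · rw [addPair_left hpq] at hx; exact absurd ⟨hx.2.1, hx.2.2⟩ h
    rcases eq_or_ne x q with rfl | h2
    · rw [addPair_right] at hx; exact absurd ⟨hx.2.2, hx.2.1⟩ h
    rw [addPair_other h1 h2] at hx
    exact hx

lemma free_addPair {p q x : V} (hpq : p ≠ q) :
    addPair σ p q x = x ↔ σ x = x ∧ x ≠ p ∧ x ≠ q := by
  rcases eq_or_ne x p with rfl | h1
  · simp [addPair_left hpq, Ne.symm hpq]
  rcases eq_or_ne x q with rfl | h2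
  · simp [addPair_right, hpq]
  simp [addPair_other h1 h2, h1, h2]

lemma removePair_cases (σ : V → V) (c x : V) :
    ((x = c ∨ x = σ c) ∧ removePair σ c x = x) ∨
      (x ≠ c ∧ x ≠ σ c ∧ removePair σ c x = σ x) := by
  rcases eq_or_ne x (σ c) with rfl | h2
  · exact Or.inl ⟨Or.inr rfl, by simp [removePair]⟩
  rcases eq_or_ne x c with rfl | h1
  · exact Or.inl ⟨Or.inl rfl, by simp [removePair, Function.update_of_ne h2]⟩
  exact Or.inr ⟨h1, h2, by simp [removePair, Function.update_of_ne h1, Function.update_of_ne h2]⟩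

lemma Inv.removePair (hI : Inv H t u σ) {c : V} (hc : σ c ≠ c) :
    Inv H t u (removePair σ c) := by
  have hu1 : u ≠ c := fun h => hc (h ▸ hI.fix)
  have hu2 : u ≠ σ c := fun h => hc (by rw [← h, ← hI.fix, h, hI.invol])
  have himg : ∀ x, x ≠ c → x ≠ σ c → σ x ≠ c ∧ σ x ≠ σ c := by
    intro x h1 h2
    constructor
    · intro h; apply h2; rw [← hI.invol x, h]
    · intro h; apply h1; rw [← hI.invol x, h, hI.invol]
  constructor
  · intro x
    rcases removePair_cases σ c x with ⟨_, h⟩ | ⟨h1, h2, h⟩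
    · rw [h, h]
    · rw [h]
      rcases removePair_cases σ c (σ x) with ⟨h3, _⟩ | ⟨_, _, h4⟩
      · rcases h3 with h3 | h3
        · exact absurd h3 (himg x h1 h2).1
        · exact absurd h3 (himg x h1 h2).2
      · rw [h4, hI.invol]
  · rcases removePair_cases σ c u with ⟨h3, _⟩ | ⟨_, _, h4⟩
    · exact absurd h3 (not_or.2 ⟨hu1, hu2⟩)
    · rw [h4, hI.fix]
  · intro x hx
    rcases removePair_cases σ c x with ⟨_, h⟩ | ⟨_, _, h⟩
    · exact absurd h hx
    · rw [h] at hx ⊢; exact hI.pair x hx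
  · intro x y hx hy
    have key : ∀ z, (P060.removePair σ c z ≠ z ∨ z = u) →
        (σ z ≠ z ∨ z = u) ∧ P060.removePair σ c z = σ z := by
      intro z hz
      rcases removePair_cases σ c z with ⟨h3, h⟩ | ⟨_, _, h⟩
      · rcases hz with hz | hz
        · exact absurd h hz
        · subst hz; exact absurd h3 (not_or.2 ⟨hu1, hu2⟩)
      · rw [h] at hz; exact ⟨hz, h⟩
    rw [(key x hx).2, (key y hy).2]
    exact hI.nocf x y (key x hx).1 (key y hy).1

/-- vertices that cannot be paired with `a` -/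
def badSet (H : SimpleGraph V) [DecidableRel H.Adj] (t : ℕ) (u : V) (σ : V → V) (a : V) :
    Finset V :=
  H.neighborFinset a ∪ (univ.filter fun c => t < codeg H a c) ∪
    (H.neighborFinset u) ∪
    ((qv H σ a).biUnion fun x => H.neighborFinset x ∩ H.neighborFinset (σ x))

lemma card_codeg_gt {d K : ℕ} (hd : ∀ v, (H.neighborFinset v).card ≤ d)
    (hK : d * d ≤ K * (t + 1)) (a : V) :
    (univ.filter fun c => t < codeg H a c).card ≤ K := by
  set S := univ.filter fun c => t < codeg H a c with hS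
  have h1 : S.card * (t + 1) ≤ ∑ c ∈ S, codeg H a c := by
    have := S.card_nsmul_le_sum (fun c => codeg H a c) (t + 1)
      (fun c hc => by simp [hS] at hc; omega)
    simpa using this
  have h2 : ∑ c ∈ S, codeg H a c ≤ d * d := by
    calc ∑ c ∈ S, codeg H a c
        = ∑ c ∈ S, ∑ w ∈ H.neighborFinset a, if H.Adj c w then 1 else 0 := by
          refine sum_congr rfl fun c _ => ?_
          rw [sum_boole]
          simp only [codeg, Nat.cast_id]
          congr 1
          ext w
          simp [and_comm]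
      _ = ∑ w ∈ H.neighborFinset a, ∑ c ∈ S, if H.Adj c w then 1 else 0 := sum_comm
      _ ≤ ∑ w ∈ H.neighborFinset a, d := by
          refine sum_le_sum fun w _ => le_trans ?_ (hd w)
          rw [sum_boole, Nat.cast_id]
          apply card_le_card
          intro c hc
          simpa using (mem_filter.1 hc).2.symm
      _ ≤ d * d := by simp; exact Nat.mul_le_mul_right _ (hd a)
  exact Nat.le_of_mul_le_mul_right (h1.trans (h2.trans hK)) (Nat.succ_pos t)

lemma card_badSet {d K Q : ℕ} (hd : ∀ v, (H.neighborFinset v).card ≤ d)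
    (hK : d * d ≤ K * (t + 1)) (hI : Inv H t u σ) (a : V) (hQ : (qv H σ a).card ≤ Q) :
    (badSet H t u σ a).card ≤ 2 * d + K + Q * t := by
  unfold badSet
  refine (card_union_le _ _).trans ?_
  have h4 : ((qv H σ a).biUnion fun x => H.neighborFinset x ∩ H.neighborFinset (σ x)).card
      ≤ Q * t := by
    refine card_biUnion_le.trans ?_
    refine le_trans (sum_le_card_nsmul _ _ t fun x hx => ?_) ?_
    · exact (hI.pair x (mem_filter.1 hx).2.1).2
    · simpa using Nat.mul_le_mul_right t hQ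
  have h3 := card_union_le (H.neighborFinset a ∪ univ.filter fun c => t < codeg H a c)
    (H.neighborFinset u)
  have h2 := card_union_le (H.neighborFinset a) (univ.filter fun c => t < codeg H a c)
  have := card_codeg_gt hd hK a
  have := hd a
  have := hd u
  omega

lemma good_of_not_bad (hI : Inv H t u σ) {a c : V} (h : c ∉ badSet H t u σ a) :
    ¬ H.Adj a c ∧ codeg H a c ≤ t ∧ ∀ x, (σ x ≠ x ∨ x = u) → ¬ Cf H a c x (σ x) := by
  simp only [badSet, mem_union, mem_filter, mem_univ, true_and, mem_biUnion, mem_inter,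
    SimpleGraph.mem_neighborFinset, not_or, not_exists, not_lt] at h
  obtain ⟨⟨⟨h1, h2⟩, h3⟩, h4⟩ := h
  refine ⟨h1, h2, fun x hx hcf => ?_⟩
  by_cases hxx : σ x = x
  · obtain rfl : x = u := hx.resolve_left (not_not_intro hxx)
    exact h3 hcf.2.2.1.symm
  · apply h4 x
    refine ⟨?_, hcf.2.2.1.symm, hcf.2.2.2.symm⟩
    simp [qv, hxx, hcf.1, hcf.2.1]

end Vale.Agent.P060
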