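import Vale.Agent.P060.Step
import Vale.Agent.P060.Decomp

/-!
Numeric parameters for the pairing, pairings of an even vertex set relative to a set of singletons,
and four-vertex branch sets without a common neighbour in `H`.
-/

namespace Vale.Agent.P060

open Finset

variable {V : Type} [Fintype V] [DecidableEq V]

lemma exists_pairing_sparse (H : SimpleGraph V) [DecidableRel H.Adj] {d : ℕ}
    (hd : ∀ v, (H.neighborFinset v).card ≤ d) (hd1 : 1 ≤ d)
    (hbnd : (1000 * d) ^ 4 ≤ Fintype.card V ^ 3) (u : V) :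
    ∃ t σ, Inv H t u σ ∧ (freeSet u σ).card ≤ 1 := by
  set n := Fintype.card V with hn
  set s : ℝ := (n : ℝ) ^ (1 / 4 : ℝ) with hs
  have hn0 : (0 : ℝ) ≤ n := Nat.cast_nonneg n
  have hs0 : 0 ≤ s := Real.rpow_nonneg hn0 _
  have hs4 : s ^ 4 = n := by
    rw [hs, ← Real.rpow_natCast, ← Real.rpow_mul hn0]; norm_num
  have hdR : (d : ℝ) ≤ 1 / 1000 * s ^ 3 := by
    have h : ((1000 : ℝ) * d) ^ 4 ≤ (s ^ 3) ^ 4 := by
      rw [← pow_mul, show 3 * 4 = 4 * 3 by norm_num, pow_mul, hs4]
      exact_mod_cast hbnd
    have := (pow_le_pow_iff_left₀ (by positivity) (by positivity) (by norm_num : (4 : ℕ) ≠ 0)).1 h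
    linarith
  have hd1' : (1 : ℝ) ≤ d := by exact_mod_cast hd1
  have hs10 : 10 ≤ s := by
    by_contra h
    push Not at h
    have := pow_lt_pow_left₀ h hs0 (by norm_num : (3 : ℕ) ≠ 0)
    norm_num at this
    linarith
  have hnpos : (0 : ℝ) < n := by rw [← hs4]; positivity
  set z : ℝ := (d : ℝ) ^ 2 / n with hz
  have hz0 : 0 ≤ z := by positivity
  have hzle : z ≤ s ^ 2 / 1000000 := by
    rw [hz, div_le_iff₀ hnpos, ← hs4]
    nlinarith [pow_le_pow_left₀ (Nat.cast_nonneg d) hdR 2]
  set t := ⌊33 * z⌋₊ with ht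
  set K := n / 32 with hK
  set Q := ⌈(Real.log n + 32 * z) / Real.log 2⌉₊ with hQ
  have hlog2 : (1 / 2 : ℝ) < Real.log 2 := by
    have := Real.log_two_gt_d9
    linarith
  have hlogn : 0 ≤ Real.log n := Real.log_natCast_nonneg n
  have hlog : Real.log n ≤ 4 * s := by
    have h1 : Real.log s ≤ s := by
      have := Real.log_le_sub_one_of_pos (by linarith : (0:ℝ) < s)
      linarith
    rw [← hs4, Real.log_pow]
    push_cast
    linarith
  have hQle : (Q : ℝ) ≤ 2 * (4 * s + 32 * z) + 1 := by
    refine (Nat.ceil_lt_add_one (by positivity)).le.trans ?_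
    gcongr
    rw [div_le_iff₀ (by linarith)]
    nlinarith [mul_nonneg (by linarith : (0:ℝ) ≤ 4 * s + 32 * z)
      (by linarith : (0:ℝ) ≤ 2 * Real.log 2 - 1)]
  have hP : (n : ℝ) * (1 + 32 * d / (n : ℝ)) ^ d ≤ 2 ^ Q := by
    have hA : (1 + 32 * d / (n : ℝ)) ^ d ≤ Real.exp (32 * z) := by
      calc (1 + 32 * d / (n : ℝ)) ^ d ≤ Real.exp (32 * d / n) ^ d := by
            refine pow_le_pow_left₀ (by positivity) ?_ d
            have := Real.add_one_le_exp (32 * d / (n : ℝ))
            linarith
        _ = Real.exp (32 * z) := by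
            rw [← Real.exp_nat_mul, hz]; congr 1; ring
    calc (n : ℝ) * (1 + 32 * d / (n : ℝ)) ^ d ≤ n * Real.exp (32 * z) :=
          mul_le_mul_of_nonneg_left hA hn0
      _ = Real.exp (Real.log n + 32 * z) := by rw [Real.exp_add, Real.exp_log hnpos]
      _ ≤ Real.exp (Q * Real.log 2) := by
          refine Real.exp_le_exp.2 ?_
          have := Nat.le_ceil ((Real.log n + 32 * z) / Real.log 2)
          rw [div_le_iff₀ (by linarith)] at this
          exact this
      _ = 2 ^ Q := by rw [Real.exp_nat_mul, Real.exp_log (by norm_num)]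
  have hKge : (n : ℝ) / 32 - 1 ≤ K := by
    have h : (n : ℝ) ≤ 32 * K + 32 := by
      have h' : n ≤ 32 * K + 32 := by omega
      exact_mod_cast h'
    linarith
  have hKle : (K : ℝ) ≤ n / 32 := Nat.cast_div_le
  have hbig : (10000 : ℝ) ≤ n := by
    rw [← hs4]; nlinarith [pow_le_pow_left₀ (by norm_num : (0:ℝ) ≤ 10) hs10 4]
  have hKt : d * d ≤ K * (t + 1) := by
    have h1 : 33 * z < (t : ℝ) + 1 := Nat.lt_floor_add_one _
    have hzd : z * n = (d : ℝ) ^ 2 := by rw [hz]; field_simp
    have : ((d * d : ℕ) : ℝ) ≤ (K * (t + 1) : ℕ) := by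
      push_cast
      calc (d : ℝ) * d = z * n := by rw [hzd]; ring
        _ ≤ 33 * z * (n / 32 - 1) := by nlinarith
        _ ≤ (K : ℝ) * (t + 1) := by
            rw [mul_comm (K : ℝ)]
            exact mul_le_mul h1.le hKge (by linarith) (by positivity)
    exact_mod_cast this
  have hmain : 2 * (3 + 5 * d + 2 * K + 2 * Q * t) ≤ n := by
    have htle : (t : ℝ) ≤ 33 * z := Nat.floor_le (by positivity)
    have h1 : (Q : ℝ) * t ≤ (9 * s + 64 * z) * (33 * z) :=
      mul_le_mul (by linarith) htle (Nat.cast_nonneg _) (by positivity)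
    have h2 : (9 * s + 64 * z) * (33 * z) ≤
        (9 * s + 64 * (s ^ 2 / 1000000)) * (33 * (s ^ 2 / 1000000)) := by gcongr
    have h3 : 10 * s ^ 3 ≤ n := by rw [← hs4]; nlinarith [pow_nonneg hs0 3]
    have : ((2 * (3 + 5 * d + 2 * K + 2 * Q * t) : ℕ) : ℝ) ≤ n := by
      push_cast
      nlinarith
    exact_mod_cast this
  exact ⟨t, exists_pairing hd hKt hmain hP u⟩

/-- The auxiliary graph on `Option W`: edges of `H`, and pairs with a common neighbour in `U`. -/
def auxG (H : SimpleGraph V) (U W : Finset V) : SimpleGraph (Option W) where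
  Adj a b := ∃ x y : W, a = some x ∧ b = some y ∧ x ≠ y ∧
    (H.Adj x y ∨ ∃ u ∈ U, H.Adj u x ∧ H.Adj u y)
  symm := ⟨by
    rintro a b ⟨x, y, hx, hy, hne, h⟩
    refine ⟨y, x, hy, hx, hne.symm, ?_⟩
    rcases h with h | ⟨u, hu, h1, h2⟩
    · exact Or.inl h.symm
    · exact Or.inr ⟨u, hu, h2, h1⟩⟩
  loopless := ⟨by
    rintro a ⟨x, y, hx, hy, hne, -⟩
    exact hne (Option.some_injective _ (hx.symm.trans hy))⟩

/-- An even set `W`, each vertex of which has at most one neighbour in `U`, splits into pairs
without conflicts among themselves or with the singletons from `U`. -/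
lemma exists_pairs (H : SimpleGraph V) [DecidableRel H.Adj] {d : ℕ}
    (hd : ∀ v, (H.neighborFinset v).card ≤ d) (hd1 : 1 ≤ d) (U W : Finset V)
    (hU : ∀ w ∈ W, ∀ u ∈ U, ∀ u' ∈ U, H.Adj w u → H.Adj w u' → u = u')
    (hW : Even W.card) (hbnd : (2000 * d) ^ 4 ≤ W.card ^ 3) :
    ∃ p : W → W, (∀ x, p (p x) = x) ∧ (∀ x, p x ≠ x) ∧ (∀ x : W, ¬ H.Adj x (p x)) ∧
      (∀ x : W, ∀ u ∈ U, ¬ (H.Adj u x ∧ H.Adj u (p x))) ∧
      (∀ x y : W, ¬ Cf H (x : V) (p x) y (p y)) := by
  classical
  set A := auxG H U W with hA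
  have hdeg : ∀ a, (A.neighborFinset a).card ≤ 2 * d := by
    intro a
    rcases a with _ | x
    · have : A.neighborFinset none = ∅ := by
        ext b
        simp [hA, auxG]
      simp [this]
    · set N := H.neighborFinset (x : V) ∪
        (U.filter fun u => H.Adj u x).biUnion (fun u => H.neighborFinset u) with hN
      have hc : (U.filter fun u => H.Adj u x).card ≤ 1 := by
        refine card_le_one.2 fun u hu u' hu' => ?_
        rw [mem_filter] at hu hu'
        exact hU x x.2 u hu.1 u' hu'.1 hu.2.symm hu'.2.symm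
      have hNc : N.card ≤ 2 * d := by
        rw [hN]
        refine (card_union_le _ _).trans ?_
        have h1 := hd (x : V)
        have h2 : ((U.filter fun u => H.Adj u x).biUnion fun u => H.neighborFinset u).card
            ≤ (U.filter fun u => H.Adj u x).card * d :=
          card_biUnion_le_card_mul _ _ _ fun u _ => hd u
        have h3 := Nat.mul_le_mul_right d hc
        omega
      refine le_trans ?_ hNc
      refine card_le_card_of_injOn (fun b => (b.getD x : V)) ?_ ?_
      · intro b hb
        simp only [mem_coe, SimpleGraph.mem_neighborFinset, hA, auxG] at hb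
        obtain ⟨x', y, hx, rfl, -, h⟩ := hb
        obtain rfl := Option.some_injective _ hx
        simp only [Option.getD_some, mem_coe, hN, mem_union, SimpleGraph.mem_neighborFinset,
          mem_biUnion, mem_filter]
        rcases h with h | ⟨u, hu, h1, h2⟩
        · exact Or.inl h
        · exact Or.inr ⟨u, ⟨hu, h1⟩, h2⟩
      · intro b hb b' hb' h
        simp only [mem_coe, SimpleGraph.mem_neighborFinset, hA, auxG] at hb hb'
        obtain ⟨-, y, -, rfl, -⟩ := hb
        obtain ⟨-, y', -, rfl, -⟩ := hb'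
        simp only [Option.getD_some] at h
        rw [Subtype.ext h]
  have hcard : Fintype.card (Option W) = W.card + 1 := by simp
  have hb' : (1000 * (2 * d)) ^ 4 ≤ Fintype.card (Option W) ^ 3 := by
    rw [hcard, ← mul_assoc]
    exact hbnd.trans (Nat.pow_le_pow_left (Nat.le_succ _) 3)
  obtain ⟨t, σ, hI, hf⟩ := exists_pairing_sparse A hdeg (by omega) hb' none
  have hfree : freeSet none σ = ∅ := by
    obtain ⟨L, -, hL, -⟩ := exists_half σ hI.invol (univ.filter fun a => σ a ≠ a)
      (fun a ha => by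
        simp only [mem_filter, mem_univ, true_and] at ha ⊢
        exact ⟨fun h => ha (by rw [hI.invol] at h; exact h.symm), ha⟩)
    have hsplit := card_filter_add_card_filter_not (s := (univ : Finset (Option W)))
      (fun a => σ a = a)
    have hfix : (univ.filter fun a => σ a = a) = insert none (freeSet none σ) := by
      ext a
      simp only [freeSet, mem_filter, mem_univ, true_and, mem_insert]
      constructor
      · intro h
        by_cases ha : a = none
        · exact Or.inl ha
        · exact Or.inr ⟨h, ha⟩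
      · rintro (rfl | ⟨h, -⟩)
        exacts [hI.fix, h]
    rw [hfix, card_insert_of_notMem (by simp [freeSet]), card_univ, hcard] at hsplit
    rw [← card_eq_zero]
    rw [Nat.even_iff] at hW
    simp only [ne_eq] at hL
    omega
  have hex : ∀ x : W, ∃ y : W, σ (some x) = some y ∧ y ≠ x := by
    intro x
    have h1 : σ (some x) ≠ some x := by
      intro h
      have : (some x : Option W) ∈ freeSet none σ := by simp [freeSet, h]
      simp [hfree] at this
    rcases hσ : σ (some x) with _ | y
    · have := hI.invol (some x)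
      rw [hσ, hI.fix] at this
      simp at this
    · exact ⟨y, rfl, fun h => h1 (by rw [hσ, h])⟩
  choose p hp hpne using hex
  have hnadj : ∀ x : W, ¬ H.Adj x (p x) ∧ ∀ u ∈ U, ¬ (H.Adj u x ∧ H.Adj u (p x)) := by
    intro x
    have h := (hI.pair (some x) (by rw [hp]; simpa using hpne x)).1
    rw [hp] at h
    constructor
    · exact fun h' => h ⟨x, p x, rfl, rfl, (hpne x).symm, Or.inl h'⟩
    · exact fun u hu h' => h ⟨x, p x, rfl, rfl, (hpne x).symm, Or.inr ⟨u, hu, h'⟩⟩
  refine ⟨p, fun x => ?_, hpne, fun x => (hnadj x).1, fun x => (hnadj x).2, fun x y hc => ?_⟩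
  · have := hI.invol (some x)
    rw [hp, hp] at this
    exact Option.some_injective _ this
  · have hlift : ∀ a b : W, H.Adj a b → A.Adj (some a) (some b) := fun a b h =>
      ⟨a, b, rfl, rfl, fun e => h.ne (by rw [e]), Or.inl h⟩
    refine hI.nocf (some x) (some y) (Or.inl (by rw [hp]; simpa using hpne x))
      (Or.inl (by rw [hp]; simpa using hpne y)) ?_
    rw [hp, hp]
    exact ⟨hlift _ _ hc.1, hlift _ _ hc.2.1, hlift _ _ hc.2.2.1, hlift _ _ hc.2.2.2⟩

/-- One more vertex that shrinks a common neighbourhood. -/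
lemma exists_shrink (H : SimpleGraph V) [DecidableRel H.Adj] {d L : ℕ}
    (hd : ∀ v, (H.neighborFinset v).card ≤ d) (X C : Finset V) (hL : L ≤ C.card) (hL0 : 0 < L) :
    ∃ b ∈ C, (X ∩ H.neighborFinset b).card * L ≤ X.card * d := by
  have hne : C.Nonempty := card_pos.1 (lt_of_lt_of_le hL0 hL)
  obtain ⟨b, hb, hmin⟩ := exists_min_image C (fun b => (X ∩ H.neighborFinset b).card) hne
  refine ⟨b, hb, ?_⟩
  calc (X ∩ H.neighborFinset b).card * L
      ≤ C.card * (X ∩ H.neighborFinset b).card := by
        rw [mul_comm]; exact Nat.mul_le_mul_right _ hL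
    _ ≤ ∑ c ∈ C, (X ∩ H.neighborFinset c).card := by
        simpa using C.card_nsmul_le_sum (fun c => (X ∩ H.neighborFinset c).card) _ hmin
    _ = ∑ c ∈ C, ∑ x ∈ X, if H.Adj x c then 1 else 0 := by
        refine sum_congr rfl fun c _ => ?_
        rw [sum_boole, Nat.cast_id]
        congr 1
        ext x
        simp [SimpleGraph.adj_comm]
    _ = ∑ x ∈ X, ∑ c ∈ C, if H.Adj x c then 1 else 0 := sum_comm
    _ ≤ X.card * d := by
        refine le_trans (sum_le_card_nsmul _ _ d fun x _ => le_trans ?_ (hd x)) (by simp)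
        rw [sum_boole, Nat.cast_id]
        apply card_le_card
        intro c hc
        simpa using (mem_filter.1 hc).2

/-- Disjoint four-sets inside `S`, each connected in `Hᶜ` and without a common `H`-neighbour. -/
lemma exists_quads (H : SimpleGraph V) [DecidableRel H.Adj] {d L : ℕ}
    (hd : ∀ v, (H.neighborFinset v).card ≤ d) (S : Finset V) (hd4 : d ^ 4 < L ^ 3) :
    ∀ m, 4 * m + d + L ≤ S.card → ∃ F : Fin m → Finset V,
      (∀ i, F i ⊆ S ∧ (F i).card ≤ 4) ∧ (∀ i j, i ≠ j → Disjoint (F i) (F j)) ∧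
      (∀ i, ∃ a ∈ F i, ∀ b ∈ F i, b ≠ a → ¬ H.Adj a b) ∧
      (∀ i v, ∃ x ∈ F i, ¬ H.Adj v x) := by
  intro m
  induction m with
  | zero => exact fun _ => ⟨Fin.elim0, fun i => i.elim0, fun i => i.elim0, fun i => i.elim0,
      fun i => i.elim0⟩
  | succ m ih =>
    intro hS
    obtain ⟨F, hF1, hF2, hF3, hF4⟩ := ih (by omega)
    have hL0 : 0 < L := by
      rcases Nat.eq_zero_or_pos L with rfl | h
      · simp at hd4
      · exact h
    set R := univ.biUnion F with hR
    have hRc : R.card ≤ 4 * m := by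
      have := card_biUnion_le_card_mul (univ : Finset (Fin m)) F 4 (fun i _ => (hF1 i).2)
      simpa [mul_comm] using this
    have hC0 : d + L ≤ (S \ R).card := by
      have := le_card_sdiff R S
      omega
    obtain ⟨a, ha⟩ : (S \ R).Nonempty := card_pos.1 (by omega)
    set C := (S \ R) \ H.neighborFinset a with hC
    have hCc : L ≤ C.card := by
      have := le_card_sdiff (H.neighborFinset a) (S \ R)
      have := hd a
      rw [hC]; omega
    obtain ⟨b, hb, hb'⟩ := exists_shrink H hd (H.neighborFinset a) C hCc hL0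
    obtain ⟨c, hc, hc'⟩ := exists_shrink H hd (H.neighborFinset a ∩ H.neighborFinset b) C hCc hL0
    obtain ⟨e, he, he'⟩ := exists_shrink H hd
      (H.neighborFinset a ∩ H.neighborFinset b ∩ H.neighborFinset c) C hCc hL0
    set X1 := (H.neighborFinset a ∩ H.neighborFinset b).card
    set X2 := (H.neighborFinset a ∩ H.neighborFinset b ∩ H.neighborFinset c).card
    set X := H.neighborFinset a ∩ H.neighborFinset b ∩ H.neighborFinset c ∩ H.neighborFinset e
    have hX : X = ∅ := by
      rw [← card_eq_zero]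
      by_contra h
      have hXp : 1 ≤ X.card := Nat.one_le_iff_ne_zero.2 h
      have : L ^ 3 ≤ d ^ 4 :=
        calc L ^ 3 = 1 * L ^ 3 := (one_mul _).symm
          _ ≤ X.card * L ^ 3 := Nat.mul_le_mul_right _ hXp
          _ = X.card * L * L ^ 2 := by ring
          _ ≤ X2 * d * L ^ 2 := Nat.mul_le_mul_right _ he'
          _ = X2 * L * (d * L) := by ring
          _ ≤ X1 * d * (d * L) := Nat.mul_le_mul_right _ hc'
          _ = X1 * L * d ^ 2 := by ring
          _ ≤ (H.neighborFinset a).card * d * d ^ 2 := Nat.mul_le_mul_right _ hb'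
          _ ≤ d * d * d ^ 2 := by gcongr; exact hd a
          _ = d ^ 4 := by ring
      omega
    set T : Finset V := {a, b, c, e} with hT
    have hCsub : C ⊆ S \ R := sdiff_subset
    have hTsub : T ⊆ S \ R := by
      intro x hx
      simp only [hT, mem_insert, mem_singleton] at hx
      rcases hx with rfl | rfl | rfl | rfl
      exacts [ha, hCsub hb, hCsub hc, hCsub he]
    have hTdis : ∀ i, Disjoint T (F i) := fun i => by
      refine disjoint_left.2 fun x hx hx' => ?_
      exact (mem_sdiff.1 (hTsub hx)).2 (mem_biUnion.2 ⟨i, mem_univ _, hx'⟩)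
    refine ⟨Fin.cons T F, ?_, ?_, ?_, ?_⟩
    · refine Fin.cases ⟨hTsub.trans sdiff_subset, ?_⟩ (fun i => by simpa using hF1 i)
      rw [Fin.cons_zero, hT]
      exact card_le_four
    · refine Fin.cases (Fin.cases (fun h => absurd rfl h) (fun j _ => by simpa using hTdis j))
        (fun i => Fin.cases (fun _ => by simpa using (hTdis i).symm) (fun j h => ?_))
      simp only [Fin.cons_succ]
      exact hF2 i j fun e => h (by rw [e])
    · refine Fin.cases ?_ (fun i => by simpa using hF3 i)
      simp only [Fin.cons_zero]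
      refine ⟨a, by simp [hT], fun x hx hxa => ?_⟩
      have hxC : x ∈ C := by
        simp only [hT, mem_insert, mem_singleton] at hx
        rcases hx with rfl | rfl | rfl | rfl
        exacts [absurd rfl hxa, hb, hc, he]
      simpa [hC] using (mem_sdiff.1 hxC).2
    · refine Fin.cases (fun v => ?_) (fun i v => by simpa using hF4 i v)
      simp only [Fin.cons_zero]
      by_contra hall
      push Not at hall
      have hv : v ∈ X := by
        simp only [X, mem_inter, SimpleGraph.mem_neighborFinset]
        exact ⟨⟨⟨(hall a (by simp [hT])).symm, (hall b (by simp [hT])).symm⟩,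
          (hall c (by simp [hT])).symm⟩, (hall e (by simp [hT])).symm⟩
      simp [hX] at hv

end Vale.Agent.P060
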