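import Vale.Agent.P060.Pairing

/-!
The averaging step and the existence of an almost perfect conflict-free pairing.
-/

namespace Vale.Agent.P060

open Finset

variable {V : Type} [Fintype V] [DecidableEq V] {H : SimpleGraph V} [DecidableRel H.Adj]
  {t : ℕ} {u : V} {σ : V → V}

/-- indicator -/
noncomputable def ind (P : Prop) [Decidable P] : ℝ := if P then 1 else 0

lemma ind_nonneg (P : Prop) [Decidable P] : 0 ≤ ind P := by unfold ind; split_ifs <;> norm_num

/-- the free vertices other than `u` -/
def freeSet (u : V) (σ : V → V) : Finset V := univ.filter fun x => σ x = x ∧ x ≠ u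

lemma wt_le_pot {A : ℝ} (hA : 1 ≤ A) (v : V) : wt H A σ v ≤ pot H A σ :=
  single_le_sum (f := fun v => wt H A σ v) (fun x _ => by unfold wt; positivity) (mem_univ v)

lemma pow_qv_le {A : ℝ} (hA : 1 ≤ A) (v : V) : (2 : ℝ) ^ (qv H σ v).card ≤ wt H A σ v :=
  le_mul_of_one_le_left (by positivity) (one_le_pow₀ hA)

lemma weight_step {A : ℝ} (hA : 1 ≤ A) {σ' : V → V} {v : V} {i j k : ℕ}
    (hf : (fv H σ' v).card + i ≤ (fv H σ v).card)
    (hq : (qv H σ' v).card ≤ (qv H σ v).card + j + k) :
    wt H A σ' v * A ^ i ≤ wt H A σ v * ((2 : ℝ) ^ j * 2 ^ k) := by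
  unfold wt
  calc A ^ (fv H σ' v).card * 2 ^ (qv H σ' v).card * A ^ i
      = A ^ ((fv H σ' v).card + i) * 2 ^ (qv H σ' v).card := by ring
    _ ≤ A ^ (fv H σ v).card * 2 ^ ((qv H σ v).card + j + k) := by
        gcongr <;> norm_num [hA, hq, hf]
    _ = _ := by ring

lemma exists_step {d K Q : ℕ} {A P0 : ℝ} (hd : ∀ v, (H.neighborFinset v).card ≤ d)
    (hK : d * d ≤ K * (t + 1))
    (hn : 2 * (3 + 5 * d + 2 * K + 2 * Q * t) ≤ Fintype.card V)
    (hA : A = 1 + 32 * d / (Fintype.card V : ℝ))
    (hP : P0 ≤ 2 ^ Q) (hI : Inv H t u σ) (hpot : pot H A σ ≤ P0)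
    (htwo : 2 ≤ (freeSet u σ).card) :
    ∃ σ', Inv H t u σ' ∧ pot H A σ' ≤ P0 ∧ (freeSet u σ').card < (freeSet u σ).card := by
  obtain ⟨a, ha, b, hb, hab⟩ := one_lt_card.1 htwo
  simp only [freeSet, mem_filter, mem_univ, true_and] at ha hb
  set n := Fintype.card V with hndef
  have hn0 : (0 : ℝ) < n := by
    have : 0 < n := by omega
    exact_mod_cast this
  have hA1 : 1 ≤ A := by rw [hA]; simp only [le_add_iff_nonneg_right]; positivity
  have hAn : A * n = n + 32 * d := by rw [hA]; field_simp
  have hQ : ∀ v, (qv H σ v).card ≤ Q := fun v =>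
    (pow_le_pow_iff_right₀ (by norm_num : (1 : ℝ) < 2)).1
      (((pow_qv_le hA1 v).trans (wt_le_pot hA1 v)).trans (hpot.trans hP))
  set R := {a, b, u} ∪ badSet H t u σ a ∪ H.neighborFinset b ∪
    (badSet H t u σ b).image σ with hR
  have hRc : R.card ≤ 3 + 5 * d + 2 * K + 2 * Q * t := by
    rw [hR]
    have h1 := card_union_le ({a, b, u} ∪ badSet H t u σ a ∪ H.neighborFinset b)
      ((badSet H t u σ b).image σ)
    have h2 := card_union_le ({a, b, u} ∪ badSet H t u σ a) (H.neighborFinset b)
    have h3 := card_union_le ({a, b, u} : Finset V) (badSet H t u σ a)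
    have h4 := card_le_three (a := a) (b := b) (c := u)
    have h5 := card_badSet hd hK hI a (hQ a)
    have h6 := card_badSet hd hK hI b (hQ b)
    have h7 : ((badSet H t u σ b).image σ).card ≤ (badSet H t u σ b).card := card_image_le
    have h8 := hd b
    nlinarith
  set C := univ \ R with hC
  have hCc : n ≤ 2 * C.card := by
    rw [hC, card_sdiff_of_subset (subset_univ R), card_univ, ← hndef]
    omega
  have hmem : ∀ c ∈ C, c ≠ a ∧ c ≠ b ∧ c ≠ u ∧ c ∉ badSet H t u σ a ∧ ¬ H.Adj b c ∧
      σ c ∉ badSet H t u σ b := by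
    intro c hc
    simp only [hC, hR, mem_sdiff, mem_univ, true_and, mem_union, mem_insert, mem_singleton,
      mem_image, SimpleGraph.mem_neighborFinset, not_or] at hc
    obtain ⟨⟨⟨⟨h1, h2, h3⟩, h4⟩, h5⟩, h6⟩ := hc
    exact ⟨h1, h2, h3, h4, h5, fun h => h6 ⟨σ c, h, hI.invol c⟩⟩
  set C1 := C.filter (fun c => σ c = c) with hC1
  set C2 := C.filter (fun c => ¬ σ c = c) with hC2
  have hsplit : C1.card + C2.card = C.card :=
    card_filter_add_card_filter_not (fun c => σ c = c)
  have hdR : ∀ v, ((H.neighborFinset v).card : ℝ) ≤ d := fun v => by exact_mod_cast hd v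
  have hcount : ∀ (S : Finset V) (v : V), ∑ c ∈ S, ind (H.Adj v c) ≤ d := by
    intro S v
    refine le_trans ?_ (hdR v)
    simp only [ind, sum_boole, Nat.cast_le]
    exact card_le_card fun c hc => by simpa using (mem_filter.1 hc).2
  have hcount' : ∀ (S : Finset V) (v : V), ∑ c ∈ S, ind (H.Adj v (σ c)) ≤ d := by
    intro S v
    refine le_trans ?_ (hdR v)
    simp only [ind, sum_boole, Nat.cast_le]
    refine card_le_card_of_injOn σ (fun c hc => ?_) (Function.LeftInverse.injective hI.invol).injOn
    simpa using (mem_filter.1 hc).2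
  have finish : ∀ (S : Finset V) (f : V → V → V), n ≤ 4 * S.card →
      (∀ c ∈ S, Inv H t u (f c) ∧ (freeSet u (f c)).card < (freeSet u σ).card) →
      (∀ v, ∑ c ∈ S, wt H A (f c) v ≤ S.card * wt H A σ v) →
      ∃ σ', Inv H t u σ' ∧ pot H A σ' ≤ P0 ∧ (freeSet u σ').card < (freeSet u σ).card := by
    intro S f hS hf hsum
    have hne : S.Nonempty := card_pos.1 (by omega)
    obtain ⟨c, hc, hle⟩ := exists_le_of_sum_le hne
      (f := fun c => pot H A (f c)) (g := fun _ => pot H A σ) (by
        unfold pot
        rw [sum_comm, sum_const, nsmul_eq_mul, mul_sum]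
        exact sum_le_sum fun v _ => hsum v)
    exact ⟨f c, (hf c hc).1, hle.trans hpot, (hf c hc).2⟩
  rcases le_or_gt n (4 * C1.card) with h4 | h4
  · -- the partner is free
    refine finish C1 (fun c => addPair σ a c) h4 (fun c hc => ?_) (fun v => ?_)
    · obtain ⟨hcC, hfree⟩ := mem_filter.1 hc
      obtain ⟨h1, -, h3, h4, -, -⟩ := hmem c hcC
      obtain ⟨g1, g2, g3⟩ := good_of_not_bad hI h4
      refine ⟨hI.addPair ha.1 hfree ha.2 h3 (Ne.symm h1) g1 g2 g3, card_lt_card ?_⟩
      refine (ssubset_iff_of_subset fun x hx => ?_).2 ⟨a, by simp [freeSet, ha], ?_⟩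
      · simp only [freeSet, mem_filter, mem_univ, true_and, free_addPair (Ne.symm h1)] at hx ⊢
        exact ⟨hx.1.1, hx.2⟩
      · simp [freeSet, free_addPair (Ne.symm h1)]
    · set i := if H.Adj v a then 1 else 0 with hi
      have hstep : ∀ c ∈ C1, wt H A (addPair σ a c) v * A ^ i ≤
          wt H A σ v * (1 + 3 * (ind (H.Adj v a) * ind (H.Adj v c))) := by
        intro c hc
        have h1 := (hmem c (mem_filter.1 hc).1).1
        have hf : (fv H (addPair σ a c) v).card + i ≤ (fv H σ v).card := by
          have hsub : fv H (addPair σ a c) v ⊆ (fv H σ v).erase a := by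
            intro x hx
            simp only [fv, mem_filter, mem_univ, true_and, free_addPair (Ne.symm h1),
              mem_erase] at hx ⊢
            exact ⟨hx.1.2.1, hx.1.1, hx.2⟩
          have := card_le_card hsub
          rw [hi]
          split_ifs with hva
          · have hmema : a ∈ fv H σ v := by simp [fv, ha.1, hva]
            rw [card_erase_of_mem hmema] at this
            have := card_pos.2 ⟨a, hmema⟩
            omega
          · have := card_erase_le (a := a) (s := fv H σ v)
            omega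
        refine (weight_step hA1 hf (j := if H.Adj v a ∧ H.Adj v c then 2 else 0) (k := 0)
          (qv_addPair σ (Ne.symm h1) v)).trans (le_of_eq ?_)
        congr 1
        simp only [ind, ite_and]
        split_ifs <;> norm_num
      refine le_of_mul_le_mul_right ?_ (pow_pos (lt_of_lt_of_le one_pos hA1) i)
      rw [sum_mul]
      refine (sum_le_sum hstep).trans ?_
      rw [← mul_sum, mul_comm (C1.card : ℝ), mul_assoc]
      refine mul_le_mul_of_nonneg_left ?_ (by unfold wt; positivity)
      have hs := hcount C1 v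
      have h4' : (n : ℝ) ≤ 4 * C1.card := by exact_mod_cast h4
      have hkey : (C1.card : ℝ) + 3 * d ≤ C1.card * A := by
        refine le_of_mul_le_mul_right ?_ hn0
        rw [mul_assoc, hAn]
        nlinarith [mul_le_mul_of_nonneg_left h4' (Nat.cast_nonneg (α := ℝ) d)]
      rw [sum_add_distrib, ← mul_sum, ← mul_sum]
      by_cases hva : H.Adj v a <;> simp [hi, hva, ind, -Finset.sum_boole] at hs ⊢
      nlinarith
  · -- the partner is paired
    have h4C : n ≤ 4 * C2.card := by omega
    set f : V → V → V := fun c => addPair (addPair (removePair σ c) a c) b (σ c) with hfd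
    have facts : ∀ c ∈ C2, σ c ≠ c ∧ a ≠ c ∧ b ≠ σ c ∧ a ≠ σ c ∧ b ≠ c ∧ c ≠ u ∧ σ c ≠ u := by
      intro c hc
      obtain ⟨hcC, hp⟩ := mem_filter.1 hc
      obtain ⟨h1, h2, h3, -, -, -⟩ := hmem c hcC
      refine ⟨hp, Ne.symm h1, ?_, ?_, Ne.symm h2, h3, ?_⟩ <;> intro h
      · exact h2 (by rw [← hI.invol c, ← h, hb.1])
      · exact h1 (by rw [← hI.invol c, ← h, ha.1])
      · exact h3 (by rw [← hI.invol c, h, hI.fix])
    have hfree : ∀ c ∈ C2, ∀ x, f c x = x ↔
        σ x = x ∧ x ≠ a ∧ x ≠ b := by
      intro c hc x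
      obtain ⟨hp, f1, f2, f3, f4, -, -⟩ := facts c hc
      simp only [hfd, free_addPair f2, free_addPair f1]
      rcases removePair_cases σ c x with ⟨h, h'⟩ | ⟨g1, g2, h'⟩
      · rcases h with h | h <;> subst h <;> simp [hI.invol, Ne.symm hp, hp]
      · rw [h']; constructor
        · rintro ⟨⟨h1, h2, -⟩, h3, -⟩; exact ⟨h1, h2, h3⟩
        · rintro ⟨h1, h2, h3⟩; exact ⟨⟨h1, h2, g1⟩, h3, g2⟩
    refine finish C2 f h4C (fun c hc => ?_) (fun v => ?_)
    · obtain ⟨hp, f1, f2, f3, f4, f5, f6⟩ := facts c hc
      obtain ⟨hcC, -⟩ := mem_filter.1 hc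
      obtain ⟨-, -, -, g4, g5, g6⟩ := hmem c hcC
      obtain ⟨p1, p2, p3⟩ := good_of_not_bad hI g4
      obtain ⟨r1, r2, r3⟩ := good_of_not_bad hI g6
      have hI0 := hI.removePair hp
      have hfix : ∀ x, σ x = x → removePair σ c x = x := by
        intro x hx
        rcases removePair_cases σ c x with ⟨_, h⟩ | ⟨_, _, h⟩ <;> rw [h]
        exact hx
      have hold : ∀ x, (removePair σ c x ≠ x ∨ x = u) →
          (σ x ≠ x ∨ x = u) ∧ removePair σ c x = σ x := by
        intro x hx
        rcases removePair_cases σ c x with ⟨h, h'⟩ | ⟨_, _, h'⟩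
        · exfalso
          rcases hx with hx | hx
          · exact hx h'
          · rcases h with h | h
            · exact f5 (h ▸ hx)
            · exact f6 (h ▸ hx)
        · exact ⟨h' ▸ hx, h'⟩
      have hec : removePair σ c c = c ∧ removePair σ c (σ c) = σ c := by
        constructor
        · rcases removePair_cases σ c c with ⟨_, h⟩ | ⟨h, _, _⟩
          exacts [h, absurd rfl h]
        · rcases removePair_cases σ c (σ c) with ⟨_, h⟩ | ⟨_, h, _⟩
          exacts [h, absurd rfl h]
      have hI1 := hI0.addPair (hfix a ha.1) hec.1 ha.2 f5 f1 p1 p2 (fun x hx => by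
        obtain ⟨k1, k2⟩ := hold x hx
        rw [k2]; exact p3 x k1)
      have hI2 := hI1.addPair (p := b) (q := σ c)
        (by rw [addPair_other (Ne.symm hab) f4, hfix b hb.1])
        (by rw [addPair_other (Ne.symm f3) hp, hec.2])
        hb.2 f6 f2 r1 r2 (fun x hx hcf => by
          rcases eq_or_ne x a with rfl | h1
          · rw [addPair_left f1] at hcf; exact g5 hcf.2.1
          rcases eq_or_ne x c with rfl | h2
          · exact g5 hcf.1
          rw [addPair_other h1 h2] at hx hcf
          obtain ⟨k1, k2⟩ := hold x hx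
          rw [k2] at hcf
          exact r3 x k1 hcf)
      refine ⟨hI2, card_lt_card ?_⟩
      refine (ssubset_iff_of_subset fun x hx => ?_).2 ⟨a, by simp [freeSet, ha], ?_⟩
      · simp only [freeSet, mem_filter, mem_univ, true_and, hfree c hc] at hx ⊢
        exact ⟨hx.1.1, hx.2⟩
      · simp [freeSet, hfree c hc]
    · set i := if H.Adj v a then 1 else 0 with hi
      set i' := if H.Adj v b then 1 else 0 with hi'
      have hstep : ∀ c ∈ C2, wt H A (f c) v * A ^ (i + i') ≤
          wt H A σ v * (1 + (15 / 2) * (ind (H.Adj v a) * ind (H.Adj v c))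
            + (15 / 2) * (ind (H.Adj v b) * ind (H.Adj v (σ c)))) := by
        intro c hc
        obtain ⟨hp, f1, f2, f3, f4, -, -⟩ := facts c hc
        have hf : (fv H (f c) v).card + (i + i') ≤ (fv H σ v).card := by
          have hsub : fv H (f c) v ∪ ((univ.filter fun x => x = a ∨ x = b) ∩
              H.neighborFinset v) ⊆ fv H σ v := by
            intro x hx
            simp only [fv, mem_union, mem_filter, mem_univ, true_and, mem_inter,
              hfree c hc, SimpleGraph.mem_neighborFinset] at hx ⊢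
            rcases hx with ⟨⟨h1, -⟩, h2⟩ | ⟨rfl | rfl, h2⟩
            · exact ⟨h1, h2⟩
            · exact ⟨ha.1, h2⟩
            · exact ⟨hb.1, h2⟩
          have hdisj : Disjoint (fv H (f c) v) ((univ.filter fun x => x = a ∨ x = b) ∩
              H.neighborFinset v) := by
            rw [disjoint_left]
            intro x hx hx'
            simp only [fv, mem_filter, mem_univ, true_and, hfree c hc, mem_inter] at hx hx'
            tauto
          have hle := card_le_card hsub
          rw [card_union_of_disjoint hdisj] at hle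
          have : i + i' ≤ ((univ.filter fun x => x = a ∨ x = b) ∩ H.neighborFinset v).card := by
            rw [hi, hi']
            split_ifs with k1 k2 k2
            · calc 2 = ({a, b} : Finset V).card := (card_pair hab).symm
                _ ≤ _ := card_le_card fun x hx => by
                  simp only [mem_insert, mem_singleton] at hx
                  rcases hx with rfl | rfl <;> simp [k1, k2]
            · exact card_pos.2 ⟨a, by simp [k1]⟩
            · exact card_pos.2 ⟨b, by simp [k2]⟩
            · exact Nat.zero_le _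
          omega
        have hq0 : (qv H (removePair σ c) v).card ≤ (qv H σ v).card := by
          refine card_le_card fun x hx => ?_
          simp only [qv, mem_filter, mem_univ, true_and] at hx ⊢
          rcases removePair_cases σ c x with ⟨_, h⟩ | ⟨_, _, h⟩
          · exact absurd h hx.1
          · rwa [h] at hx
        have hq1 := qv_addPair (H := H) (removePair σ c) f1 v
        have hq2 := qv_addPair (H := H) (addPair (removePair σ c) a c) f2 v
        refine (weight_step hA1 hf (j := if H.Adj v a ∧ H.Adj v c then 2 else 0)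
          (k := if H.Adj v b ∧ H.Adj v (σ c) then 2 else 0) ?_).trans ?_
        · simp only [hfd]; omega
        refine mul_le_mul_of_nonneg_left ?_ (by unfold wt; positivity)
        simp only [ind, ite_and]
        split_ifs <;> norm_num
      refine le_of_mul_le_mul_right ?_ (pow_pos (lt_of_lt_of_le one_pos hA1) (i + i'))
      rw [sum_mul]
      refine (sum_le_sum hstep).trans ?_
      rw [← mul_sum, mul_comm (C2.card : ℝ), mul_assoc]
      refine mul_le_mul_of_nonneg_left ?_ (by unfold wt; positivity)
      have hs := hcount C2 v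
      have hs' := hcount' C2 v
      have h4' : (n : ℝ) ≤ 4 * C2.card := by exact_mod_cast h4C
      have hd0 : (0 : ℝ) ≤ d := Nat.cast_nonneg d
      have hkey : (C2.card : ℝ) + 8 * d ≤ C2.card * A := by
        refine le_of_mul_le_mul_right ?_ hn0
        rw [mul_assoc, hAn]
        nlinarith [mul_le_mul_of_nonneg_left h4' hd0]
      rw [sum_add_distrib, sum_add_distrib, ← mul_sum, ← mul_sum, ← mul_sum, ← mul_sum]
      by_cases hva : H.Adj v a <;> by_cases hvb : H.Adj v b <;>
        simp [hi, hi', hva, hvb, ind, -Finset.sum_boole] at hs hs' ⊢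
      · nlinarith [mul_nonneg (Nat.cast_nonneg (α := ℝ) C2.card) (sq_nonneg (A - 1))]
      · nlinarith
      · nlinarith

/-- There is a conflict-free pairing with at most one free vertex besides `u`. -/
lemma exists_pairing {d K Q : ℕ} (hd : ∀ v, (H.neighborFinset v).card ≤ d)
    (hK : d * d ≤ K * (t + 1))
    (hn : 2 * (3 + 5 * d + 2 * K + 2 * Q * t) ≤ Fintype.card V)
    (hP : (Fintype.card V : ℝ) * (1 + 32 * d / (Fintype.card V : ℝ)) ^ d ≤ 2 ^ Q) (u : V) :
    ∃ σ, Inv H t u σ ∧ (freeSet u σ).card ≤ 1 := by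
  set A : ℝ := 1 + 32 * d / (Fintype.card V : ℝ) with hA
  have key : ∀ m, ∀ σ, Inv H t u σ → pot H A σ ≤ 2 ^ Q → (freeSet u σ).card ≤ m →
      ∃ σ', Inv H t u σ' ∧ (freeSet u σ').card ≤ 1 := by
    intro m
    induction m with
    | zero => exact fun σ h1 _ h3 => ⟨σ, h1, by omega⟩
    | succ m ih =>
      intro σ h1 h2 h3
      rcases le_or_gt (freeSet u σ).card 1 with h | h
      · exact ⟨σ, h1, h⟩
      obtain ⟨σ', g1, g2, g3⟩ := exists_step hd hK hn hA le_rfl h1 h2 h
      exact ih σ' g1 g2 (by omega)
  refine key _ id ⟨fun _ => rfl, rfl, fun x hx => absurd rfl hx, ?_⟩ ?_ le_rfl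
  · intro x y hx hy hc
    obtain rfl : x = u := hx.resolve_left (not_not_intro rfl)
    obtain rfl : y = x := hy.resolve_left (not_not_intro rfl)
    exact H.irrefl hc.1
  · refine le_trans ?_ hP
    have hA1 : 1 ≤ A := by rw [hA]; simp only [le_add_iff_nonneg_right]; positivity
    unfold pot
    rw [← card_univ, ← nsmul_eq_mul]
    refine sum_le_card_nsmul _ _ _ fun v _ => ?_
    unfold wt
    have hq : qv H (id : V → V) v = ∅ := by simp [qv]
    rw [hq, card_empty, pow_zero, mul_one]
    refine pow_le_pow_right₀ hA1 (le_trans (card_le_card fun x hx => ?_) (hd v))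
    simpa using (mem_filter.1 hx).2.2

end Vale.Agent.P060
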